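import Mathlib

/-!
# P255 module D1: the obstruction in metric spaces with the CN inequality

Let `x` lie on the axis of `f` and `l = d(x, f x)`; then `d(x, fⁿ x) = |n| l` by CN.
With `⟨ab, cd⟩ = (d(a,d)² + d(b,c)² - d(a,c)² - d(b,d)²)/2`, CN gives
`|⟨ab, cd⟩| ≤ d(a,b) d(c,d)`. So for `γ` commuting with `f`, the function
`Sₙ(γ) = ⟨x γx, x fⁿx⟩ / n` is additive up to `O(1/n)`, hence `Sₙ` of a commutator tends to `0`.
Also `n ↦ d(y, fⁿx)² - n² l²` is convex by CN; its slope at both infinities being zero it is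
constant: `d(fⁿ x, g x)² = n² l² + d(x, g x)²` for a commutator `g` of the centraliser of `f`.
Applying this to `f₂ = [a₁,b₁]` (left) and to `f₁ f₂⁻¹ = [a₂,b₂]` (right) forces `d(x, f₂ x) = 0`.
-/

namespace Vale.Agent.P255

/-- the CN inequality of Bruhat and Tits -/
def HasCN (X : Type*) [MetricSpace X] : Prop :=
  ∀ a b : X, ∃ m : X, dist a m = dist a b / 2 ∧ dist m b = dist a b / 2 ∧
    ∀ p : X, dist p m ^ 2 ≤ dist p a ^ 2 / 2 + dist p b ^ 2 / 2 - dist a b ^ 2 / 4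

section Aux

variable {X G : Type*} [MetricSpace X] [Group G] [MulAction G X]

/-- A point halfway between `a` and `b` satisfies the CN inequality. -/
theorem HasCN.mid (hcn : HasCN X) {a b m : X} (h₁ : dist a m = dist a b / 2)
    (h₂ : dist m b = dist a b / 2) (p : X) :
    dist p m ^ 2 ≤ dist p a ^ 2 / 2 + dist p b ^ 2 / 2 - dist a b ^ 2 / 4 := by
  obtain ⟨m', -, -, hm'⟩ := hcn a b
  have h : dist m m' ^ 2 ≤ 0 := by
    refine (hm' m).trans ?_
    rw [dist_comm m a, h₁, h₂]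
    nlinarith
  have h0 : m = m' := dist_eq_zero.1 (pow_eq_zero_iff two_ne_zero |>.1 (h.antisymm (sq_nonneg _)))
  exact h0 ▸ hm' p

/-- The pairing `⟨ab, cd⟩`. -/
noncomputable def qip (a b c d : X) : ℝ :=
  (dist a d ^ 2 + dist b c ^ 2 - dist a c ^ 2 - dist b d ^ 2) / 2

theorem abs_qip_le (hcn : HasCN X) (a b c d : X) :
    |qip a b c d| ≤ (dist a b ^ 2 + dist c d ^ 2) / 2 := by
  have key : ∀ a b c d : X, dist a c ^ 2 + dist b d ^ 2 ≤
      dist a b ^ 2 + dist b c ^ 2 + dist c d ^ 2 + dist a d ^ 2 := by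
    intro a b c d
    obtain ⟨m, -, -, hm⟩ := hcn b d
    have h := dist_triangle a m c
    rw [dist_comm m c] at h
    have h' : dist a c ^ 2 ≤ 2 * dist a m ^ 2 + 2 * dist c m ^ 2 := by
      nlinarith [dist_nonneg (x := a) (y := c), sq_nonneg (dist a m - dist c m)]
    have ha := hm a
    have hc := hm c
    rw [dist_comm c b] at hc
    linarith
  have h1 := key a b c d
  have h2 := key a b d c
  rw [dist_comm d c] at h2
  rw [qip, abs_le]
  constructor <;> linarith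

variable (hcn : HasCN X) (hiso : ∀ (γ : G) (a b : X), dist (γ • a) (γ • b) = dist a b)
  {f : G} {x : X} (hmin : ∀ y : X, dist x (f • x) ≤ dist y (f • y))

include hiso in
theorem dist_zpow_shift (i j : ℤ) :
    dist ((f ^ i) • x) ((f ^ j) • x) = dist x ((f ^ (j - i)) • x) := by
  conv_rhs => rw [← hiso (f ^ i), ← mul_smul, ← zpow_add, add_sub_cancel]

include hiso in
theorem qip_smul (γ : G) (a b c d : X) :
    qip (γ • a) (γ • b) (γ • c) (γ • d) = qip a b c d := by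
  simp [qip, hiso]

include hcn hiso hmin in
theorem axis_two : dist x ((f ^ 2) • x) = 2 * dist x (f • x) := by
  obtain ⟨m, h1, h2, hm⟩ := hcn x (f • x)
  have hfm : ∀ p, dist p (f • m) ^ 2 ≤ dist p (f • x) ^ 2 / 2 + dist p ((f ^ 2) • x) ^ 2 / 2
      - dist x (f • x) ^ 2 / 4 := by
    intro p
    have e : p = f • f⁻¹ • p := (smul_inv_smul f p).symm
    rw [e, pow_two f, mul_smul, hiso, hiso, hiso]
    exact hm _
  have hxm := hfm x
  have hp := hm (f • m)
  have e3 : dist (f • m) (f • x) = dist x (f • x) / 2 := by rw [hiso, dist_comm, h1]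
  rw [dist_comm (f • m) x, e3, dist_comm (f • m) m] at hp
  have hl := hmin m
  have up : dist x ((f ^ 2) • x) ≤ 2 * dist x (f • x) := by
    have := dist_triangle x (f • x) ((f ^ 2) • x)
    rw [pow_two f, mul_smul] at this ⊢
    rw [hiso] at this
    linarith
  refine le_antisymm up ?_
  nlinarith [dist_nonneg (x := x) (y := f • x), dist_nonneg (x := x) (y := (f ^ 2) • x),
    dist_nonneg (x := m) (y := f • m)]

include hcn hiso hmin in
/-- Convexity of `n ↦ d(p, fⁿ x)² - n² l²` along an axis. -/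
theorem axis_convex (p : X) (n : ℤ) :
    2 * dist p ((f ^ n) • x) ^ 2 + 2 * dist x (f • x) ^ 2 ≤
      dist p ((f ^ (n - 1)) • x) ^ 2 + dist p ((f ^ (n + 1)) • x) ^ 2 := by
  have h2 : dist ((f ^ (n - 1)) • x) ((f ^ (n + 1)) • x) = 2 * dist x (f • x) := by
    rw [dist_zpow_shift hiso, show n + 1 - (n - 1) = ((2 : ℕ) : ℤ) by push_cast; ring,
      zpow_natCast, axis_two hcn hiso hmin]
  have hm := hcn.mid (a := (f ^ (n - 1)) • x) (b := (f ^ (n + 1)) • x) (m := (f ^ n) • x)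
    (by rw [dist_zpow_shift hiso, h2, show n - (n - 1) = 1 by ring, zpow_one]; ring)
    (by rw [dist_zpow_shift hiso, h2, show n + 1 - n = 1 by ring, zpow_one]; ring) p
  rw [h2] at hm
  linarith

include hiso in
theorem dist_zpow_nat_le : ∀ n : ℕ, dist x ((f ^ n) • x) ≤ n * dist x (f • x)
  | 0 => by simp
  | n + 1 => by
    have h := dist_triangle x ((f ^ n) • x) ((f ^ (n + 1)) • x)
    rw [pow_succ f n, mul_smul, hiso] at h
    rw [pow_succ f n, mul_smul]
    push_cast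
    linarith [dist_zpow_nat_le n]

include hcn hiso hmin in
theorem axis_dist_nat (n : ℕ) : dist x ((f ^ n) • x) = n * dist x (f • x) := by
  refine le_antisymm (dist_zpow_nat_le hiso n) ?_
  have h : ∀ k : ℕ, 0 ≤ dist x ((f ^ k) • x) ^ 2 - (k : ℝ) ^ 2 * dist x (f • x) ^ 2 ∧
      dist x ((f ^ k) • x) ^ 2 - (k : ℝ) ^ 2 * dist x (f • x) ^ 2 ≤
        dist x ((f ^ (k + 1)) • x) ^ 2 - ((k : ℝ) + 1) ^ 2 * dist x (f • x) ^ 2 := by
    intro k
    induction k with
    | zero => simp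
    | succ k ih =>
      have hc := axis_convex hcn hiso hmin x ((k + 1 : ℕ) : ℤ)
      rw [zpow_natCast, show ((k + 1 : ℕ) : ℤ) - 1 = (k : ℕ) by push_cast; ring,
        show ((k + 1 : ℕ) : ℤ) + 1 = ((k + 2 : ℕ) : ℤ) by push_cast; ring, zpow_natCast,
        zpow_natCast] at hc
      push_cast
      constructor <;> linarith [ih.1, ih.2]
  have := (h n).1
  nlinarith [dist_nonneg (x := x) (y := (f ^ n) • x), dist_nonneg (x := x) (y := f • x),
    mul_nonneg (Nat.cast_nonneg (α := ℝ) n) (dist_nonneg (x := x) (y := f • x))]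

include hcn hiso hmin in
theorem axis_dist (n : ℤ) : dist x ((f ^ n) • x) ^ 2 = (n : ℝ) ^ 2 * dist x (f • x) ^ 2 := by
  rcases Int.eq_nat_or_neg n with ⟨k, rfl | rfl⟩
  · rw [zpow_natCast, axis_dist_nat hcn hiso hmin]; push_cast; ring
  · rw [zpow_neg, zpow_natCast, ← hiso (f ^ k), smul_inv_smul, dist_comm,
      axis_dist_nat hcn hiso hmin]
    push_cast; ring

include hcn hiso in
/-- `n ↦ ⟨x γx, x fⁿx⟩` is additive in `γ` up to a bounded error on the centraliser of `f`. -/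
theorem qip_mul_le {γ δ : G} (hγ : Commute f γ) (n : ℤ) :
    |qip x ((γ * δ) • x) x ((f ^ n) • x) -
        (qip x (γ • x) x ((f ^ n) • x) + qip x (δ • x) x ((f ^ n) • x))| ≤
      dist x (δ • x) ^ 2 + dist x (γ • x) ^ 2 := by
  have hc : γ⁻¹ • (f ^ n) • x = (f ^ n) • γ⁻¹ • x := by
    rw [← mul_smul, ← mul_smul, ((hγ.inv_right).zpow_left n).eq]
  have e : qip x ((γ * δ) • x) x ((f ^ n) • x) -
      (qip x (γ • x) x ((f ^ n) • x) + qip x (δ • x) x ((f ^ n) • x)) =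
        qip x (δ • x) (γ⁻¹ • x) x + qip x (δ • x) ((f ^ n) • x) ((f ^ n) • γ⁻¹ • x) := by
    have h2 := qip_smul hiso γ⁻¹ (γ • x) ((γ * δ) • x) x ((f ^ n) • x)
    rw [inv_smul_smul, mul_smul, inv_smul_smul, hc, ← mul_smul γ δ x] at h2
    simp only [qip] at h2 ⊢
    linarith
  have hd : dist (γ⁻¹ • x) x = dist x (γ • x) := by rw [← hiso γ, smul_inv_smul]
  have hd' : dist ((f ^ n) • x) ((f ^ n) • γ⁻¹ • x) = dist x (γ • x) := by
    rw [hiso, dist_comm, hd]
  have b1 := abs_qip_le hcn x (δ • x) (γ⁻¹ • x) x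
  have b2 := abs_qip_le hcn x (δ • x) ((f ^ n) • x) ((f ^ n) • γ⁻¹ • x)
  rw [hd] at b1
  rw [hd'] at b2
  rw [e]
  refine (abs_add_le _ _).trans ?_
  linarith

include hcn hiso in
/-- On products of commutators of the centraliser of `f` the pairing with `fⁿ x` is bounded. -/
theorem qip_commutator_bound {a b : G} (ha : Commute f a) (hb : Commute f b) (m : ℤ) :
    ∃ K : ℝ, ∀ n : ℤ, |qip x (((a * b * a⁻¹ * b⁻¹) ^ m) • x) x ((f ^ n) • x)| ≤ K := by
  set S : G → ℤ → ℝ := fun γ n => qip x (γ • x) x ((f ^ n) • x) with hS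
  have add : ∀ γ δ : G, Commute f γ → ∃ K : ℝ, ∀ n, |S (γ * δ) n - (S γ n + S δ n)| ≤ K :=
    fun γ δ hγ => ⟨_, fun n => qip_mul_le hcn hiso hγ n⟩
  have one : ∀ n, S 1 n = 0 := fun n => by simp [hS, qip]
  set g := a * b * a⁻¹ * b⁻¹ with hg
  have hfg : Commute f g := ((ha.mul_right hb).mul_right ha.inv_right).mul_right hb.inv_right
  obtain ⟨K₀, hK₀⟩ : ∃ K, ∀ n, |S g n| ≤ K := by
    obtain ⟨A, hA⟩ := add a a⁻¹ ha
    obtain ⟨B, hB⟩ := add b b⁻¹ hb
    obtain ⟨C, hC⟩ := add a b ha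
    obtain ⟨D, hD⟩ := add (a * b) a⁻¹ (ha.mul_right hb)
    obtain ⟨E, hE⟩ := add (a * b * a⁻¹) b⁻¹ ((ha.mul_right hb).mul_right ha.inv_right)
    refine ⟨A + B + C + D + E, fun n => ?_⟩
    have h1 := abs_le.1 (hA n)
    have h2 := abs_le.1 (hB n)
    have h3 := abs_le.1 (hC n)
    have h4 := abs_le.1 (hD n)
    have h5 := abs_le.1 (hE n)
    rw [mul_inv_cancel, one] at h1 h2
    rw [hg, abs_le]
    constructor <;> linarith
  induction m using Int.induction_on with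
  | zero => exact ⟨0, fun n => by simp [qip]⟩
  | succ k ih =>
    obtain ⟨K, hK⟩ := ih
    obtain ⟨A, hA⟩ := add (g ^ (k : ℤ)) g (hfg.zpow_right _)
    refine ⟨K + K₀ + A, fun n => ?_⟩
    have h1 := abs_le.1 (hK n)
    have h2 := abs_le.1 (hK₀ n)
    have h3 := abs_le.1 (hA n)
    rw [← zpow_add_one] at h3
    simp only [hS] at h2 h3
    rw [abs_le]
    constructor <;> linarith
  | pred k ih =>
    obtain ⟨K, hK⟩ := ih
    obtain ⟨A, hA⟩ := add (g ^ (-(k : ℤ) - 1)) g (hfg.zpow_right _)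
    refine ⟨K + K₀ + A, fun n => ?_⟩
    have h1 := abs_le.1 (hK n)
    have h2 := abs_le.1 (hK₀ n)
    have h3 := abs_le.1 (hA n)
    rw [← zpow_add_one, sub_add_cancel] at h3
    simp only [hS] at h2 h3
    rw [abs_le]
    constructor <;> linarith

include hcn hiso hmin in
/-- Pythagoras for a product of commutators of the centraliser of `f`. -/
theorem axis_pythagoras {a b : G} (ha : Commute f a) (hb : Commute f b) (m n : ℤ) :
    dist ((f ^ n) • x) (((a * b * a⁻¹ * b⁻¹) ^ m) • x) ^ 2 =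
      (n : ℝ) ^ 2 * dist x (f • x) ^ 2 + dist x (((a * b * a⁻¹ * b⁻¹) ^ m) • x) ^ 2 := by
  set p := ((a * b * a⁻¹ * b⁻¹) ^ m) • x with hp
  set φ : ℤ → ℝ := fun k => dist p ((f ^ k) • x) ^ 2 - (k : ℝ) ^ 2 * dist x (f • x) ^ 2 with hφ
  obtain ⟨K, hK⟩ := qip_commutator_bound hcn hiso (x := x) ha hb m
  have hbd : ∀ k, |φ k - φ 0| ≤ 2 * K := by
    intro k
    have h := abs_le.1 (hK k)
    rw [← hp, qip, dist_self, axis_dist hcn hiso hmin] at h
    rw [abs_le]
    simp only [hφ, zpow_zero, one_smul, Int.cast_zero, ne_eq, OfNat.ofNat_ne_zero,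
      not_false_eq_true, zero_pow, zero_mul, sub_zero]
    constructor <;> linarith [h.1, h.2]
  have hcx : ∀ k, φ k - φ (k - 1) ≤ φ (k + 1) - φ k := by
    intro k
    have := axis_convex hcn hiso hmin p k
    simp only [hφ]
    push_cast
    linarith
  have up : ∀ (i : ℕ) (k : ℤ), (i : ℝ) * (φ (k + 1) - φ k) ≤ φ (k + i) - φ k ∧
      φ (k + 1) - φ k ≤ φ (k + i + 1) - φ (k + i) := by
    intro i k
    induction i with
    | zero => simp
    | succ i ih =>
      have h := hcx (k + i + 1)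
      rw [add_sub_cancel_right] at h
      push_cast
      rw [← add_assoc]
      constructor <;> linarith [ih.1, ih.2]
  have down : ∀ (i : ℕ) (k : ℤ), (i : ℝ) * (φ k - φ (k + 1)) ≤ φ (k + 1 - i) - φ (k + 1) ∧
      φ (k + 1 - i + 1) - φ (k + 1 - i) ≤ φ (k + 1) - φ k ∨ i = 0 := by
    intro i k
    induction i with
    | zero => exact Or.inr rfl
    | succ i ih =>
      left
      rcases ih with ⟨h1, h2⟩ | rfl
      · have h := hcx (k + 1 - i)
        have e : k + 1 - ((i + 1 : ℕ) : ℤ) = k + 1 - i - 1 := by push_cast; ring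
        rw [e, sub_add_cancel]
        push_cast
        constructor <;> linarith
      · simp
  have flat : ∀ k, φ (k + 1) = φ k := by
    intro k
    by_contra hne
    rcases lt_or_gt_of_ne hne with hlt | hgt
    · obtain ⟨i, hi⟩ := exists_nat_gt (4 * K / (φ k - φ (k + 1)))
      rw [div_lt_iff₀ (by linarith)] at hi
      rcases down i k with ⟨h1, -⟩ | rfl
      · linarith [(abs_le.1 (hbd (k + 1 - i))).2, (abs_le.1 (hbd (k + 1))).1]
      · rw [Nat.cast_zero, zero_mul] at hi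
        linarith [abs_nonneg (φ 0 - φ 0), hbd 0]
    · obtain ⟨i, hi⟩ := exists_nat_gt (4 * K / (φ (k + 1) - φ k))
      rw [div_lt_iff₀ (by linarith)] at hi
      linarith [(up i k).1, (abs_le.1 (hbd (k + i))).2, (abs_le.1 (hbd k)).1]
  have hcst : φ n = φ 0 := by
    induction n using Int.induction_on with
    | zero => rfl
    | succ k ih => rw [flat, ih]
    | pred k ih => rw [← flat, sub_add_cancel, ih]
  simp only [hφ, zpow_zero, one_smul, Int.cast_zero] at hcst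
  rw [dist_comm ((f ^ n) • x) p, dist_comm x p]
  linarith

theorem sq_abs_sub_le {u v D n c : ℝ} (hu : 0 ≤ u) (hv : 0 ≤ v) (h : |u - v| ≤ D)
    (hn : 1 ≤ n) (huc : u ≤ c * n) : |u ^ 2 - v ^ 2| ≤ D * (2 * c + D) * n := by
  have h' := abs_le.1 h
  have hD : 0 ≤ D := (abs_nonneg _).trans h
  rw [sq_sub_sq, abs_mul, abs_of_nonneg (by linarith : 0 ≤ u + v)]
  calc (u + v) * |u - v| ≤ (2 * (c * n) + D * n) * D := by
        refine mul_le_mul ?_ h (abs_nonneg _) (by nlinarith)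
        nlinarith
    _ = D * (2 * c + D) * n := by ring

end Aux

theorem commutator_relations_trivial {X G : Type*} [MetricSpace X] [Group G] [MulAction G X]
    (hcn : HasCN X) (hiso : ∀ (γ : G) (a b : X), dist (γ • a) (γ • b) = dist a b)
    (hmin : ∀ γ : G, ∃ x : X, ∀ y : X, dist x (γ • x) ≤ dist y (γ • y))
    (hfree : ∀ (γ : G) (x : X), γ • x = x → γ = 1)
    {f₁ f₂ a₁ b₁ a₂ b₂ : G} (h1a : Commute f₁ a₁) (h1b : Commute f₁ b₁)
    (h2a : Commute f₂ a₂) (h2b : Commute f₂ b₂) (h12 : Commute f₁ f₂)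
    (hf₂ : f₂ = a₁ * b₁ * a₁⁻¹ * b₁⁻¹) (hf₁ : f₁ * f₂⁻¹ = a₂ * b₂ * a₂⁻¹ * b₂⁻¹) :
    f₂ = 1 := by
  obtain ⟨x, hx⟩ := hmin f₁
  obtain ⟨y, hy⟩ := hmin f₂
  refine hfree f₂ y (Eq.symm ?_)
  set l₁ := dist x (f₁ • x) with hl₁
  set l₂ := dist y (f₂ • y) with hl₂
  refine dist_eq_zero.1 ?_
  rw [← hl₂]
  set h := f₁ * f₂⁻¹ with hh
  have P1 : ∀ n m : ℤ, dist ((f₁ ^ n) • x) ((f₂ ^ m) • x) ^ 2 =
      (n : ℝ) ^ 2 * l₁ ^ 2 + dist x ((f₂ ^ m) • x) ^ 2 := fun n m => by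
    rw [hf₂]; exact axis_pythagoras hcn hiso hx h1a h1b m n
  have P2 : ∀ n m : ℤ, dist ((f₂ ^ n) • y) ((h ^ m) • y) ^ 2 =
      (n : ℝ) ^ 2 * l₂ ^ 2 + dist y ((h ^ m) • y) ^ 2 := fun n m => by
    rw [hf₁]; exact axis_pythagoras hcn hiso hy h2a h2b m n
  have hf : ∀ n : ℤ, f₁ ^ n = h ^ n * f₂ ^ n := fun n => by
    have hc : Commute h f₂ := h12.mul_left ((Commute.refl f₂).inv_left)
    rw [← hc.mul_zpow, hh, inv_mul_cancel_right]
  -- the two base points stay at bounded distance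
  have near : ∀ (γ δ : G), |dist (γ • x) (δ • x) - dist (γ • y) (δ • y)| ≤ 2 * dist x y := by
    intro γ δ
    have e1 := dist_triangle4 (γ • x) (γ • y) (δ • y) (δ • x)
    have e2 := dist_triangle4 (γ • y) (γ • x) (δ • x) (δ • y)
    rw [hiso, hiso, dist_comm y x] at e1
    rw [hiso, hiso, dist_comm y x] at e2
    rw [abs_le]; constructor <;> linarith
  set D := 2 * dist x y with hD
  set c := l₁ + l₂ + D with hc
  have hD0 : 0 ≤ D := by positivity
  have l₁0 : 0 ≤ l₁ := dist_nonneg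
  have l₂0 : 0 ≤ l₂ := dist_nonneg
  by_contra hne
  have hpos : 0 < 2 * l₂ ^ 2 := by positivity
  obtain ⟨i, hi⟩ := exists_nat_gt (3 * (D * (2 * c + D)) / (2 * l₂ ^ 2))
  rw [div_lt_iff₀ hpos] at hi
  have hi0 : i ≠ 0 := fun h0 => by
    subst h0
    norm_num at hi
    nlinarith
  have hn1 : (1 : ℝ) ≤ i := by exact_mod_cast Nat.one_le_iff_ne_zero.2 hi0
  have hx1 : dist x ((f₁ ^ (i : ℤ)) • x) = i * l₁ := by
    rw [zpow_natCast]; exact axis_dist_nat hcn hiso hx i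
  have hy2 : dist y ((f₂ ^ (i : ℤ)) • y) = i * l₂ := by
    rw [zpow_natCast]; exact axis_dist_nat hcn hiso hy i
  -- `(n, m) = (n, 0)`
  have A := sq_abs_sub_le dist_nonneg dist_nonneg (near 1 (f₁ ^ (i : ℤ))) hn1
    (c := c) (by rw [one_smul, hx1]; nlinarith)
  have eA : dist y ((f₁ ^ (i : ℤ)) • y) ^ 2 =
      (i : ℝ) ^ 2 * l₂ ^ 2 + dist y ((h ^ (i : ℤ)) • y) ^ 2 := by
    have := P2 (-(i : ℤ)) (i : ℤ)
    rw [← hiso (f₂ ^ (i : ℤ)), ← mul_smul, ← mul_smul, ← zpow_add, add_neg_cancel, zpow_zero,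
      one_smul] at this
    have hcm : Commute (f₂ ^ (i : ℤ)) (h ^ (i : ℤ)) :=
      ((h12.mul_left (Commute.refl f₂).inv_left).zpow_zpow _ _).symm
    rw [hcm.eq, ← hf] at this
    rw [this]; push_cast; ring
  simp only [one_smul, hx1, eA] at A
  -- `(n, m) = (n, n)`
  have B := sq_abs_sub_le dist_nonneg dist_nonneg (near 1 (f₂ ^ (i : ℤ))) hn1
    (c := c) (by
      have := (abs_le.1 (near 1 (f₂ ^ (i : ℤ)))).2
      rw [one_smul, one_smul, hy2] at this
      rw [one_smul]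
      nlinarith)
  simp only [one_smul, hy2] at B
  have hC0 := P1 i i
  have Cc := sq_abs_sub_le dist_nonneg dist_nonneg (near (f₁ ^ (i : ℤ)) (f₂ ^ (i : ℤ))) hn1
    (c := c) (by
      have h3 := dist_triangle_left ((f₁ ^ (i : ℤ)) • x) ((f₂ ^ (i : ℤ)) • x) x
      have h4 := (abs_le.1 (near 1 (f₂ ^ (i : ℤ)))).2
      rw [one_smul, one_smul, hy2] at h4
      rw [hx1] at h3
      nlinarith)
  have eC : dist ((f₁ ^ (i : ℤ)) • y) ((f₂ ^ (i : ℤ)) • y) ^ 2 =
      dist y ((h ^ (i : ℤ)) • y) ^ 2 := by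
    have hcm : Commute (h ^ (i : ℤ)) (f₂ ^ (i : ℤ)) :=
      (h12.mul_left (Commute.refl f₂).inv_left).zpow_zpow _ _
    rw [hf, hcm.eq, mul_smul, hiso, dist_comm]
  rw [eC, hC0] at Cc
  push_cast at A B Cc
  have hA := abs_le.1 A
  have hB := abs_le.1 B
  have hC := abs_le.1 Cc
  nlinarith

end Vale.Agent.P255
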