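import Vale.Agent.P255.NPC.CoverFamily
import Vale.Agent.P255.NPC.CN

/-!
# P255 module D2b: Cartan–Hadamard for a closed manifold

The universal cover is `E = T_{x₀} M` with the covering map `exp_{x₀}` and the distance of its
family of exponential charts; the fundamental group acts by the covering translations given by
monodromy, freely and semisimply.
-/

open scoped Manifold ContDiff
open Bundle Set Filter Topology

namespace Vale.Agent.P255

/-- a map over a covering commutes with monodromy -/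
theorem monodromy_comp {E X : Type*} [TopologicalSpace E] [TopologicalSpace X] {e : E → X}
    (cov : IsCoveringMap e) (T : E → E) (hTc : Continuous T) (hT : ∀ y, e (T y) = e y) {x : X}
    (γ : Path.Homotopic.Quotient x x) (z : E) (hz : e z = x) :
    (cov.monodromy γ ⟨T z, (hT z).trans hz⟩).1 = T (cov.monodromy γ ⟨z, hz⟩).1 := by
  obtain ⟨p⟩ := γ
  have h0 : p 0 = e z := p.source.trans hz.symm
  have h : (⟨T, hTc⟩ : C(E, E)).comp (cov.liftPath p z h0)
      = cov.liftPath p (T z) (h0.trans (hT z).symm) := by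
    refine (cov.eq_liftPath_iff' _).2 ⟨funext fun t => ?_, ?_⟩
    · exact (hT _).trans (congr_fun (cov.liftPath_lifts p z h0) t)
    · exact congrArg T (cov.liftPath_zero p z h0)
  exact (congrArg (fun g : C(unitInterval, E) => g 1) h).symm

/-- in a simply connected covering only the trivial class fixes a point -/
theorem monodromy_fixed {E X : Type*} [TopologicalSpace E] [TopologicalSpace X]
    [SimplyConnectedSpace E] {e : E → X} (cov : IsCoveringMap e) {a : E} {x : X} (ha : e a = x)
    (γ : Path.Homotopic.Quotient x x) (h : cov.monodromy γ ⟨a, ha⟩ = ⟨a, ha⟩) :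
    γ = Path.Homotopic.Quotient.refl x := by
  subst ha
  obtain ⟨p⟩ := γ
  let L : Path a a := ⟨cov.liftPath p a p.source, cov.liftPath_zero _ _ _, congrArg Subtype.val h⟩
  have hL : L.map cov.continuous = p :=
    Path.ext (funext fun t => congr_fun (cov.liftPath_lifts p a p.source) t)
  have := (SimplyConnectedSpace.paths_homotopic L (Path.refl a)).map ⟨e, cov.continuous⟩
  refine Quotient.sound ?_
  rw [← hL]
  exact this

namespace UnivCover

variable {M : Type} [TopologicalSpace M] [ChartedSpace E3 M] [IsManifold (𝓡 3) ∞ M] {x₀ : M}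
  (U : UnivCover x₀)

theorem exists_translation (a b : E3) (h : U.e b = U.e a) :
    ∃! T : C(E3, E3), T a = b ∧ U.e ∘ T = U.e := by
  simpa using U.cover.existsUnique_continuousMap_lifts ⟨U.e, U.cover.continuous⟩ a b h

/-- the covering translation sending `a` to `b` -/
noncomputable def trans (a b : E3) (h : U.e b = U.e a) : C(E3, E3) :=
  (U.exists_translation a b h).exists.choose

theorem trans_apply (a b : E3) (h : U.e b = U.e a) : U.trans a b h a = b :=
  (U.exists_translation a b h).exists.choose_spec.1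

theorem trans_over (a b : E3) (h : U.e b = U.e a) (y : E3) : U.e (U.trans a b h y) = U.e y :=
  congr_fun (U.exists_translation a b h).exists.choose_spec.2 y

/-- covering translations agreeing at one point are equal -/
theorem trans_ext {S T : E3 → E3} (hS : Continuous S) (hT : Continuous T)
    (heS : ∀ y, U.e (S y) = U.e y) (heT : ∀ y, U.e (T y) = U.e y) {a : E3} (h : S a = T a) :
    S = T :=
  U.cover.eq_of_comp_eq hS hT (funext fun y => (heS y).trans (heT y).symm) a h

/-- every covering translation has an inverse -/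
theorem exists_inverse (T : C(E3, E3)) (hT : ∀ y, U.e (T y) = U.e y) :
    ∃ S : C(E3, E3), (∀ y, U.e (S y) = U.e y) ∧ (∀ y, T (S y) = y) ∧ ∀ y, S (T y) = y := by
  refine ⟨U.trans (T 0) 0 (hT 0).symm, U.trans_over _ _ _, fun y => ?_, fun y => ?_⟩
  · exact congr_fun (U.trans_ext (a := T 0) (T.continuous.comp (ContinuousMap.continuous _))
      continuous_id (fun z => (hT _).trans (U.trans_over _ _ _ z)) (fun z => rfl)
      (by simp [U.trans_apply])) y
  · exact congr_fun (U.trans_ext (a := 0) ((ContinuousMap.continuous _).comp T.continuous)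
      continuous_id (fun z => (U.trans_over _ _ _ (T z)).trans (hT z)) (fun z => rfl)
      (by simp [U.trans_apply])) y

/-- the endpoint of the lift from `z` of a loop class -/
noncomputable def mono (γ : FundamentalGroup M x₀) (z : E3) (hz : U.e z = x₀) : E3 :=
  (U.cover.monodromy γ ⟨z, hz⟩).1

theorem mono_over (γ : FundamentalGroup M x₀) (z : E3) (hz : U.e z = x₀) :
    U.e (U.mono γ z hz) = x₀ :=
  (U.cover.monodromy γ ⟨z, hz⟩).2

theorem mono_one (z : E3) (hz : U.e z = x₀) : U.mono 1 z hz = z :=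
  congrArg Subtype.val (congr_fun U.cover.monodromy_refl ⟨z, hz⟩)

theorem mono_mul (γ δ : FundamentalGroup M x₀) (z : E3) (hz : U.e z = x₀) :
    U.mono (γ * δ) z hz = U.mono γ (U.mono δ z hz) (U.mono_over δ z hz) := by
  letI := U.cover.fundamentalGroupMulAction x₀
  exact congrArg Subtype.val (mul_smul γ δ (⟨z, hz⟩ : U.e ⁻¹' {x₀}))

/-- covering translations commute with monodromy -/
theorem mono_natural (γ : FundamentalGroup M x₀) (T : C(E3, E3)) (hT : ∀ y, U.e (T y) = U.e y)
    (z : E3) (hz : U.e z = x₀) :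
    U.mono γ (T z) ((hT z).trans hz) = T (U.mono γ z hz) :=
  monodromy_comp U.cover T T.continuous hT γ z hz

/-- the translation of a loop class -/
noncomputable def act (γ : FundamentalGroup M x₀) : C(E3, E3) :=
  U.trans 0 (U.mono γ⁻¹ 0 U.zero) ((U.mono_over _ _ _).trans U.zero.symm)

theorem act_over (γ : FundamentalGroup M x₀) (y : E3) : U.e (U.act γ y) = U.e y :=
  U.trans_over _ _ _ y

theorem act_zero (γ : FundamentalGroup M x₀) : U.act γ 0 = U.mono γ⁻¹ 0 U.zero :=
  U.trans_apply _ _ _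

theorem act_one (y : E3) : U.act 1 y = y :=
  congr_fun (U.trans_ext (S := U.act 1) (T := id) (a := 0) (ContinuousMap.continuous _)
    continuous_id (U.act_over 1) (fun _ => rfl)
    (by rw [act_zero]; simp only [inv_one, mono_one, id_eq])) y

theorem act_mul (γ δ : FundamentalGroup M x₀) (y : E3) :
    U.act (γ * δ) y = U.act γ (U.act δ y) := by
  refine congr_fun (U.trans_ext (S := U.act (γ * δ)) (T := U.act γ ∘ U.act δ) (a := 0)
    (ContinuousMap.continuous _) ((ContinuousMap.continuous _).comp (ContinuousMap.continuous _))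
    (U.act_over _) (fun z => (U.act_over γ _).trans (U.act_over δ z)) ?_) y
  simp only [Function.comp_apply, U.act_zero, mul_inv_rev, U.mono_mul]
  rw [← U.mono_natural δ⁻¹ (U.act γ) (U.act_over γ) 0 U.zero]
  simp only [U.act_zero]

theorem eq_one_of_fixed (γ : FundamentalGroup M x₀) {y : E3} (h : U.act γ y = y) : γ = 1 := by
  have hid : ⇑(U.act γ) = id :=
    U.trans_ext (ContinuousMap.continuous _) continuous_id (U.act_over γ) (fun _ => rfl) h
  have h0 : U.mono γ⁻¹ 0 U.zero = 0 := by rw [← U.act_zero, hid]; rfl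
  obtain ⟨g, hg⟩ : ∃ g : FundamentalGroup M x₀, g = γ⁻¹ := ⟨_, rfl⟩
  rw [← hg] at h0
  have hm : U.cover.monodromy g (⟨0, U.zero⟩ : U.e ⁻¹' {x₀}) = ⟨0, U.zero⟩ := Subtype.ext h0
  have h1 : g = 1 := monodromy_fixed U.cover U.zero g hm
  exact inv_eq_one.1 (hg ▸ h1)

/-- a bound on the distance from `0` to some point of every fibre -/
theorem exists_radius [CompactSpace M] : ∃ R : ℝ, ∀ q : M, ∃ z : E3, U.e z = q ∧ U.F.d 0 z ≤ R := by
  have hd : Continuous fun z : E3 => U.F.d 0 z := by
    unfold ExpFamily.d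
    exact (U.F.Φ 0).symm.continuous.norm
  have ho : ∀ n : ℕ, IsOpen (U.e '' {z | U.F.d 0 z < n}) := fun n =>
    U.cover.isOpenMap _ (isOpen_lt hd continuous_const)
  obtain ⟨t, ht⟩ := isCompact_univ.elim_finite_subcover _ ho fun q _ => by
    obtain ⟨z, rfl⟩ := U.surj q
    obtain ⟨n, hn⟩ := exists_nat_gt (U.F.d 0 z)
    exact mem_iUnion.2 ⟨n, z, hn, rfl⟩
  refine ⟨(t.sup id : ℕ), fun q => ?_⟩
  obtain ⟨n, hn, z, hz, rfl⟩ := mem_iUnion₂.1 (ht (mem_univ q))
  exact ⟨z, rfl, le_trans (le_of_lt hz) (Nat.cast_le.2 (Finset.le_sup (f := id) hn))⟩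

/-- semisimplicity: covering translations attain their displacement -/
theorem exists_min_displacement [T2Space M] [CompactSpace M] (T : C(E3, E3))
    (hT : ∀ y, U.e (T y) = U.e y) :
    ∃ x, ∀ y, U.F.d x (T x) ≤ U.F.d y (T y) := by
  obtain ⟨R₀, hR₀⟩ := U.exists_radius
  set R := max R₀ 0 with hR
  set B := U.F.d 0 (T 0) + 2 * R with hB
  -- a point moved less than `0` is conjugate to a translation moving `0` boundedly
  have conj : ∀ y, U.F.d y (T y) ≤ U.F.d 0 (T 0) → ∃ (S : C(E3, E3)) (k : E3),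
      U.F.d 0 k ≤ R ∧ (∀ z, U.e (S z) = U.e z) ∧ U.F.d 0 (S 0) ≤ B ∧
      U.F.d k (S k) = U.F.d y (T y) ∧ ∀ z, ∃ w, U.F.d z (S z) = U.F.d w (T w) := by
    intro y hy
    obtain ⟨k, hk, hkR⟩ := hR₀ (U.e y)
    let A := U.trans y k hk
    obtain ⟨A', hA', hAA', hA'A⟩ := U.exists_inverse A (U.trans_over y k hk)
    have hAy : A y = k := U.trans_apply y k hk
    have hiso := U.deck A A.continuous (U.trans_over y k hk)
    let S : C(E3, E3) := A.comp (T.comp A')
    have hS : ∀ z, U.e (S z) = U.e z := fun z =>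
      (U.trans_over y k hk _).trans ((hT _).trans (hA' z))
    have hd : ∀ z, U.F.d z (S z) = U.F.d (A' z) (T (A' z)) := fun z => by
      conv_lhs => rw [← hAA' z]
      simp only [S, ContinuousMap.comp_apply, hA'A]
      exact hiso _ _
    have hk' : A' k = y := by rw [← hAy, hA'A]
    have hkd : U.F.d k (S k) = U.F.d y (T y) := by rw [hd, hk']
    have hkR' : U.F.d 0 k ≤ R := hkR.trans (le_max_left _ _)
    refine ⟨S, k, hkR', hS, ?_, hkd, fun z => ⟨A' z, hd z⟩⟩
    calc U.F.d 0 (S 0) ≤ U.F.d 0 k + U.F.d k (S 0) := U.F.d_triangle _ _ _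
      _ ≤ U.F.d 0 k + (U.F.d k (S k) + U.F.d (S k) (S 0)) :=
          add_le_add le_rfl (U.F.d_triangle _ _ _)
      _ ≤ B := by
          rw [U.deck S S.continuous hS, U.F.d_comm k 0, hkd]
          linarith
  -- there are finitely many such conjugates
  set P : Set E3 := U.e ⁻¹' {x₀} ∩ {z | U.F.d 0 z ≤ B} with hP
  have hPd : IsDiscrete (U.e ⁻¹' {x₀}) := ⟨(U.cover x₀).discreteTopology_fiber⟩
  have hfin : P.Finite :=
    ((U.F.isCompact_ball 0 B).inter_left (isClosed_singleton.preimage U.cover.continuous)).finite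
      (hPd.mono inter_subset_left)
  set 𝒮 : Set C(E3, E3) := {S | (∀ z, U.e (S z) = U.e z) ∧ U.F.d 0 (S 0) ≤ B ∧
    ∀ z, ∃ w, U.F.d z (S z) = U.F.d w (T w)} with h𝒮
  have h𝒮fin : 𝒮.Finite := by
    refine (hfin.subset ?_).of_finite_image (f := fun S : C(E3, E3) => S 0) fun S hS S' hS' h => ?_
    · rintro _ ⟨S, hS, rfl⟩
      exact ⟨(hS.1 0).trans U.zero, hS.2.1⟩
    · exact ContinuousMap.ext fun z =>
        congr_fun (U.trans_ext S.continuous S'.continuous hS.1 hS'.1 h) z
  have hball : IsCompact {k | U.F.d 0 k ≤ R} := U.F.isCompact_ball 0 R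
  have hne : {k | U.F.d 0 k ≤ R}.Nonempty :=
    ⟨0, (U.F.d_self 0).trans_le (le_max_right _ _)⟩
  have hmin : ∀ S : C(E3, E3), ∃ k, ∀ z, U.F.d 0 z ≤ R → U.F.d k (S k) ≤ U.F.d z (S z) := by
    intro S
    obtain ⟨k, -, hk⟩ := hball.exists_isMinOn hne (f := fun z => U.F.d z (S z))
      (U.F.continuous_d.comp (continuous_id.prodMk S.continuous)).continuousOn
    exact ⟨k, fun z hz => hk hz⟩
  choose km hkm using hmin
  have h𝒮ne : 𝒮.Nonempty := by
    obtain ⟨S, k, -, h1, h2, -, h3⟩ := conj 0 le_rfl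
    exact ⟨S, h1, h2, h3⟩
  obtain ⟨S, hS, hSmin⟩ := h𝒮fin.exists_minimalFor (fun S => U.F.d (km S) (S (km S))) 𝒮 h𝒮ne
  obtain ⟨x, hx⟩ := hS.2.2 (km S)
  have hle : ∀ S' ∈ 𝒮, U.F.d (km S) (S (km S)) ≤ U.F.d (km S') (S' (km S')) := fun S' hS' =>
    (le_total _ _).elim id fun h => hSmin hS' h
  refine ⟨x, fun y => ?_⟩
  rw [← hx]
  have small : ∀ y, U.F.d y (T y) ≤ U.F.d 0 (T 0) →
      U.F.d (km S) (S (km S)) ≤ U.F.d y (T y) := by
    intro y hy
    obtain ⟨S', k, hk, h1, h2, hd, h3⟩ := conj y hy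
    exact (hle S' ⟨h1, h2, h3⟩).trans ((hkm S' k hk).trans_eq hd)
  rcases le_total (U.F.d y (T y)) (U.F.d 0 (T 0)) with h | h
  · exact small y h
  · exact (small 0 le_rfl).trans h

end UnivCover

theorem cartanHadamard {M : Type} [TopologicalSpace M] [ChartedSpace E3 M]
    [IsManifold (𝓡 3) ∞ M] [T2Space M] [CompactSpace M] [ConnectedSpace M]
    (h : Metric 3 M) (hh : NonposCurvature h) (x₀ : M) :
    ∃ (X : Type) (_ : MetricSpace X) (_ : MulAction (FundamentalGroup M x₀) X),
      HasCN X ∧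
      (∀ (γ : FundamentalGroup M x₀) (a b : X), dist (γ • a) (γ • b) = dist a b) ∧
      (∀ γ : FundamentalGroup M x₀, ∃ x : X, ∀ y : X, dist x (γ • x) ≤ dist y (γ • y)) ∧
      (∀ (γ : FundamentalGroup M x₀) (x : X), γ • x = x → γ = 1) := by
  obtain ⟨U⟩ := univCover_nonempty h hh x₀
  let A : MulAction (FundamentalGroup M x₀) U.F.Space :=
    { smul := fun γ y => U.act γ y
      one_smul := U.act_one
      mul_smul := U.act_mul }
  exact ⟨U.F.Space, inferInstance, A, U.F.hasCN,
    fun γ a b => U.deck (U.act γ) (ContinuousMap.continuous _) (U.act_over γ) a b,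
    fun γ => U.exists_min_displacement (U.act γ) (U.act_over γ),
    fun γ x hx => U.eq_one_of_fixed γ hx⟩

end Vale.Agent.P255
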