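import Vale.Agent.P255.Riem.Defs
import Vale.Agent.P255.NPC.CN

/-!
# P255 module D2b, metric half: the distance of a family of expanding exponential charts

`Φ x` is the exponential chart at `x` of the universal cover, normalised so that its form at `0` is
the Euclidean one, and `Q` is the squared length. The distance `d x y = ‖(Φ x).symm y‖` satisfies
the CN inequality. Everything follows from one lemma: `(Φ x).symm` does not increase lengths.
-/

open Set Filter Topology

namespace Vale.Agent.P255

/-- exponential charts at all points, with radial speed constant and expanding differential -/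
structure ExpFamily where
  Q : E3 → E3 → ℝ
  Q_cont : Continuous fun q : E3 × E3 => Q q.1 q.2
  Q_smul : ∀ (y : E3) (c : ℝ) (w : E3), Q y (c • w) = c ^ 2 * Q y w
  Φ : E3 → E3 ≃ₜ E3
  zero : ∀ x, Φ x 0 = x
  smooth : ∀ x, ContDiff ℝ 1 (Φ x)
  radial : ∀ (x v : E3) (t : ℝ), Q (Φ x (t • v)) (fderiv ℝ (Φ x) (t • v) v) = ‖v‖ ^ 2
  expand : ∀ x v w : E3, ‖w‖ ^ 2 ≤ Q (Φ x v) (fderiv ℝ (Φ x) v w)

namespace ExpFamily

variable (F : ExpFamily)

/-- the distance -/
noncomputable def d (x y : E3) : ℝ := ‖(F.Φ x).symm y‖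

/-- the length of a curve parametrised by `[0,1]` -/
noncomputable def len (c : ℝ → E3) : ℝ := ∫ t in (0 : ℝ)..1, √(F.Q (c t) (deriv c t))

lemma symm_self (x : E3) : (F.Φ x).symm x = 0 := by
  apply (F.Φ x).injective
  rw [(F.Φ x).apply_symm_apply, F.zero]

lemma fderiv_injective (x v : E3) : Function.Injective (fderiv ℝ (F.Φ x) v) := by
  refine (injective_iff_map_eq_zero _).2 fun w hw => ?_
  have h := F.expand x v w
  rw [hw, show (0 : E3) = (0 : ℝ) • (0 : E3) by simp, F.Q_smul] at h
  simpa using le_antisymm (by simpa using h) (sq_nonneg ‖w‖)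

/-- the differential of a chart, as an equivalence -/
noncomputable def dΦ (x v : E3) : E3 ≃L[ℝ] E3 :=
  (LinearEquiv.ofBijective (fderiv ℝ (F.Φ x) v).toLinearMap
    ⟨F.fderiv_injective x v,
      LinearMap.injective_iff_surjective.1 (F.fderiv_injective x v)⟩).toContinuousLinearEquiv

lemma dΦ_apply (x v w : E3) : F.dΦ x v w = fderiv ℝ (F.Φ x) v w := rfl

lemma smooth_symm (x : E3) : ContDiff ℝ 1 (F.Φ x).symm := by
  refine (F.Φ x).contDiff_symm (f₀' := fun v => F.dΦ x v) (fun v => ?_) (F.smooth x)
  have h := ((F.smooth x).differentiable (by norm_num) v).hasFDerivAt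
  convert h using 1
  exact ContinuousLinearMap.ext fun w => rfl

lemma deriv_comp_chart (x : E3) {w : ℝ → E3} {t : ℝ} (hw : DifferentiableAt ℝ w t) :
    deriv (fun s => F.Φ x (w s)) t = fderiv ℝ (F.Φ x) (w t) (deriv w t) :=
  (((F.smooth x).differentiable (by norm_num) (w t)).hasFDerivAt.comp_hasDerivAt t
    hw.hasDerivAt).deriv

lemma continuous_speed {c : ℝ → E3} (hc : ContDiff ℝ 1 c) :
    Continuous fun t => √(F.Q (c t) (deriv c t)) :=
  Real.continuous_sqrt.comp
    (F.Q_cont.comp (hc.continuous.prodMk (hc.continuous_deriv le_rfl)))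

/-- the inverse chart does not increase lengths -/
lemma chart_le_len (x : E3) {c : ℝ → E3} (hc : ContDiff ℝ 1 c) :
    ‖(F.Φ x).symm (c 1) - (F.Φ x).symm (c 0)‖ ≤ F.len c := by
  set w : ℝ → E3 := fun t => (F.Φ x).symm (c t) with hwdef
  have hw : ContDiff ℝ 1 w := (F.smooth_symm x).comp hc
  have hint : (∫ t in (0 : ℝ)..1, deriv w t) = w 1 - w 0 :=
    intervalIntegral.integral_deriv_eq_sub (fun t _ => hw.differentiable (by norm_num) t)
      ((hw.continuous_deriv le_rfl).intervalIntegrable _ _)
  change ‖w 1 - w 0‖ ≤ _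
  rw [← hint]
  refine (intervalIntegral.norm_integral_le_integral_norm zero_le_one).trans ?_
  refine intervalIntegral.integral_mono_on zero_le_one
    ((hw.continuous_deriv le_rfl).norm.intervalIntegrable _ _)
    ((F.continuous_speed hc).intervalIntegrable _ _) fun t _ => ?_
  have h := F.expand x (w t) (deriv w t)
  rw [← F.deriv_comp_chart x (hw.differentiable (by norm_num) t),
    show (fun s => F.Φ x (w s)) = c from funext fun s => (F.Φ x).apply_symm_apply (c s),
    show F.Φ x (w t) = c t from (F.Φ x).apply_symm_apply (c t)] at h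
  exact Real.le_sqrt_of_sq_le h

lemma d_le_len {c : ℝ → E3} (hc : ContDiff ℝ 1 c) : F.d (c 0) (c 1) ≤ F.len c := by
  simpa [d, F.symm_self] using F.chart_le_len (c 0) hc

/-- a radial segment of a chart -/
noncomputable def seg (x v : E3) (a b : ℝ) (t : ℝ) : E3 := F.Φ x ((a + (b - a) * t) • v)

lemma contDiff_seg (x v : E3) (a b : ℝ) : ContDiff ℝ 1 (F.seg x v a b) :=
  (F.smooth x).comp (by fun_prop)

lemma len_seg (x v : E3) (a b : ℝ) : F.len (F.seg x v a b) = |b - a| * ‖v‖ := by
  have h : ∀ t, √(F.Q (F.seg x v a b t) (deriv (F.seg x v a b) t)) = |b - a| * ‖v‖ := by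
    intro t
    have hd : HasDerivAt (fun s : ℝ => (a + (b - a) * s) • v) ((b - a) • v) t := by
      simpa using (((hasDerivAt_id t).const_mul (b - a)).const_add a).smul_const v
    have e : deriv (F.seg x v a b) t =
        fderiv ℝ (F.Φ x) ((a + (b - a) * t) • v) ((b - a) • v) := by
      have := F.deriv_comp_chart x hd.differentiableAt
      rw [hd.deriv] at this
      exact this
    rw [e, map_smul, F.Q_smul]
    simp only [seg]
    rw [F.radial, ← mul_pow, ← sq_abs, abs_mul, abs_norm, Real.sqrt_sq (by positivity)]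
  simp [len, h]

lemma d_seg_le (x v : E3) (a b : ℝ) :
    F.d (F.Φ x (a • v)) (F.Φ x (b • v)) ≤ |b - a| * ‖v‖ := by
  have h := F.d_le_len (F.contDiff_seg x v a b)
  rw [F.len_seg] at h
  simpa [seg] using h

lemma d_chart (x v : E3) : F.d x (F.Φ x v) = ‖v‖ := by
  simp [d]

/-- every inverse chart is 1-Lipschitz for the distance -/
lemma chart_le_d (z x y : E3) : ‖(F.Φ z).symm y - (F.Φ z).symm x‖ ≤ F.d x y := by
  have h := F.chart_le_len z (F.contDiff_seg x ((F.Φ x).symm y) 0 1)
  rw [F.len_seg] at h
  simpa [seg, F.zero, d] using h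

lemma d_self (x : E3) : F.d x x = 0 := by simp [d, F.symm_self]

lemma d_le_swap (x y : E3) : F.d y x ≤ F.d x y := by
  simpa [d, F.symm_self] using F.chart_le_d y x y

lemma d_comm (x y : E3) : F.d x y = F.d y x := le_antisymm (F.d_le_swap y x) (F.d_le_swap x y)

lemma d_triangle (x y z : E3) : F.d x z ≤ F.d x y + F.d y z := by
  have h := F.chart_le_d x y z
  have h2 := norm_le_norm_add_norm_sub' ((F.Φ x).symm z) ((F.Φ x).symm y)
  simp only [d] at h ⊢
  linarith

lemma eq_of_d_eq_zero {x y : E3} (h : F.d x y = 0) : x = y := by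
  have := congrArg (F.Φ x) (norm_eq_zero.1 h)
  simpa [F.zero] using this.symm

/-- the distance is continuous for the topology of `E3` -/
lemma continuous_d : Continuous fun p : E3 × E3 => F.d p.1 p.2 := by
  have h0 : ∀ x, Tendsto (fun x' => F.d x x') (𝓝 x) (𝓝 0) := fun x => by
    simpa [d, F.symm_self] using ((F.Φ x).symm.continuous.norm.tendsto x)
  refine continuous_iff_continuousAt.2 fun p => ?_
  refine tendsto_iff_norm_sub_tendsto_zero.2 (squeeze_zero (fun q => norm_nonneg _)
    (fun q : E3 × E3 => ?_) (g := fun q => F.d p.1 q.1 + F.d p.2 q.2) ?_)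
  · rw [Real.norm_eq_abs, abs_sub_le_iff]
    constructor <;>
      linarith [F.d_triangle q.1 p.1 q.2, F.d_triangle p.1 p.2 q.2, F.d_triangle p.1 q.1 p.2,
        F.d_triangle q.1 q.2 p.2, F.d_comm p.1 q.1, F.d_comm p.2 q.2]
  · simpa using ((h0 p.1).comp (continuous_fst.tendsto p)).add
      ((h0 p.2).comp (continuous_snd.tendsto p))

lemma isCompact_ball (x : E3) (r : ℝ) : IsCompact {y | F.d x y ≤ r} := by
  have : {y | F.d x y ≤ r} = F.Φ x '' Metric.closedBall 0 r := by
    ext y
    simp only [Set.mem_ofPred_eq, Set.mem_image, Metric.mem_closedBall, dist_zero_right, d]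
    exact ⟨fun h => ⟨_, h, (F.Φ x).apply_symm_apply y⟩, fun ⟨v, hv, e⟩ => by simpa [← e] using hv⟩
  rw [this]
  exact (isCompact_closedBall 0 r).image (F.Φ x).continuous

/-- a map that carries charts to charts, up to linear isometries, preserves the distance -/
lemma d_map {T : E3 → E3} {L : E3 → E3 → E3} (hL : ∀ x v, ‖L x v‖ = ‖v‖)
    (hT : ∀ x v, T (F.Φ x v) = F.Φ (T x) (L x v)) (x y : E3) : F.d (T x) (T y) = F.d x y := by
  have h := hT x ((F.Φ x).symm y)
  rw [(F.Φ x).apply_symm_apply] at h
  rw [h, F.d_chart, hL, d]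

/-- the midpoint inequality -/
theorem exists_midpoint (a b : E3) : ∃ m, F.d a m = F.d a b / 2 ∧ F.d m b = F.d a b / 2 ∧
    ∀ p, F.d p m ^ 2 ≤ F.d p a ^ 2 / 2 + F.d p b ^ 2 / 2 - F.d a b ^ 2 / 4 := by
  set v := (F.Φ a).symm b with hv
  set m := F.Φ a ((1 / 2 : ℝ) • v) with hm
  have hab : F.d a b = ‖v‖ := rfl
  have ham : F.d a m = ‖v‖ / 2 := by
    rw [hm, F.d_chart, norm_smul, Real.norm_eq_abs, abs_of_pos (by norm_num)]; ring
  have hmb : F.d m b = ‖v‖ / 2 := by
    refine le_antisymm ?_ (by linarith [F.d_triangle a m b])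
    have h := F.d_seg_le a v (1 / 2) 1
    rw [one_smul, hv, (F.Φ a).apply_symm_apply, ← hv, ← hm] at h
    norm_num at h ⊢
    linarith
  refine ⟨m, by rw [ham, hab], by rw [hmb, hab], fun p => ?_⟩
  set A := (F.Φ m).symm a with hA
  set B := (F.Φ m).symm b with hB
  have hnA : ‖A‖ = ‖v‖ / 2 := by rw [← ham, F.d_comm a m]; rfl
  have hnB : ‖B‖ = ‖v‖ / 2 := by rw [← hmb]; rfl
  -- no shortcut at `m`
  have hAB : ‖v‖ ≤ ‖B - A‖ := by
    let I : ℝ → ℝ := fun s => ∫ t in (0 : ℝ)..1,
      √(F.Q (F.Φ m (s • (A + t • (B - A)))) (fderiv ℝ (F.Φ m) (s • (A + t • (B - A))) (B - A)))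
    have hIc : Continuous I := by
      refine intervalIntegral.continuous_parametric_intervalIntegral_of_continuous' ?_ 0 1
      exact Real.continuous_sqrt.comp (F.Q_cont.comp (((F.Φ m).continuous.comp (by fun_prop)).prodMk
        ((((F.smooth m).continuous_fderiv (by norm_num)).comp (by fun_prop)).clm_apply
          continuous_const)))
    have hI0 : I 0 = ‖B - A‖ := by
      have h := F.radial m (B - A) 0
      rw [zero_smul] at h
      simp [I, h, -map_sub]
    have hs : ∀ s ∈ Set.Ioc (0 : ℝ) 1, ‖v‖ ≤ I s := by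
      intro s hs
      set q := F.Φ m (s • A) with hq
      set q' := F.Φ m (s • B) with hq'
      have h1 : F.d a q ≤ (1 - s) * ‖A‖ := by
        have h := F.d_seg_le m A 1 s
        rw [one_smul, hA, (F.Φ m).apply_symm_apply, ← hA, ← hq, abs_of_nonpos (by linarith [hs.2])] at h
        linarith
      have h2 : F.d q' b ≤ (1 - s) * ‖B‖ := by
        have h := F.d_seg_le m B s 1
        rw [one_smul, hB, (F.Φ m).apply_symm_apply, ← hB, ← hq', abs_of_nonneg (by linarith [hs.2])] at h
        exact h
      have h3 : F.d q q' ≤ s * I s := by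
        let c : ℝ → E3 := fun t => F.Φ m (s • (A + t • (B - A)))
        have hc : ContDiff ℝ 1 c := (F.smooth m).comp (by fun_prop)
        have h := F.d_le_len hc
        have e0 : c 0 = q := by simp [c, q]
        have e1 : c 1 = q' := by simp only [c, q', one_smul, add_sub_cancel]
        have el : F.len c = s * I s := by
          simp only [len, I, ← intervalIntegral.integral_const_mul]
          refine intervalIntegral.integral_congr fun t _ => ?_
          have hd : HasDerivAt (fun τ : ℝ => s • (A + τ • (B - A))) (s • (B - A)) t :=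
            ((((hasDerivAt_id t).smul_const (B - A)).const_add A).const_smul s).congr_deriv (by simp)
          have e : deriv c t = fderiv ℝ (F.Φ m) (s • (A + t • (B - A))) (s • (B - A)) := by
            have := F.deriv_comp_chart m hd.differentiableAt
            rw [hd.deriv] at this
            exact this
          simp only [e, map_smul, F.Q_smul, c, Real.sqrt_mul (sq_nonneg s), Real.sqrt_sq hs.1.le]
        rw [e0, e1, el] at h
        exact h
      have h4 : ‖v‖ ≤ F.d a q + F.d q q' + F.d q' b := by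
        linarith [F.d_triangle a q b, F.d_triangle q q' b]
      rw [hnA] at h1; rw [hnB] at h2
      have h5 : s * ‖v‖ ≤ s * I s := by nlinarith
      exact le_of_mul_le_mul_left h5 hs.1
    rw [← hI0]
    refine ge_of_tendsto (hIc.continuousWithinAt (s := Set.Ioi 0) (x := 0)) ?_
    filter_upwards [Ioc_mem_nhdsGT (zero_lt_one' ℝ)] with s hs' using hs s hs'
  have hsum : A + B = 0 := by
    have h := parallelogram_law_with_norm ℝ A B
    rw [norm_sub_rev A B] at h
    have : ‖A + B‖ = 0 := by nlinarith [norm_nonneg (A + B), norm_nonneg v]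
    exact norm_eq_zero.1 this
  set P := (F.Φ m).symm p with hP
  have hpa : ‖P - A‖ ≤ F.d p a := by
    rw [norm_sub_rev]; exact F.chart_le_d m p a
  have hpb : ‖P + A‖ ≤ F.d p b := by
    have h := F.chart_le_d m p b
    rw [← hB, ← hP, norm_sub_rev, eq_neg_of_add_eq_zero_right hsum, sub_neg_eq_add] at h
    exact h
  have hpm : F.d p m = ‖P‖ := by rw [F.d_comm, hP, d]
  rw [hpm, hab]
  have h := parallelogram_law_with_norm ℝ P A
  simp only [← sq, hnA] at h
  have h1 := pow_le_pow_left₀ (norm_nonneg _) hpa 2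
  have h2 := pow_le_pow_left₀ (norm_nonneg _) hpb 2
  linarith

/-- `E3` with the distance `d` -/
def Space (_F : ExpFamily) : Type := E3

noncomputable instance : MetricSpace F.Space where
  dist x y := F.d x y
  dist_self := F.d_self
  dist_comm := F.d_comm
  dist_triangle := F.d_triangle
  eq_of_dist_eq_zero := F.eq_of_d_eq_zero

lemma dist_def (x y : F.Space) : dist x y = F.d x y := rfl

theorem hasCN : HasCN F.Space := fun a b => F.exists_midpoint a b

end ExpFamily

end Vale.Agent.P255
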