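import Vale.Agent.P255.NPC.Covering
import Vale.Agent.P255.NPC.ExpFamily

/-!
# P255 module D2b, metric half: the universal cover with its distance

The lifts of all exponential maps through the covering `exp_{x₀}`, normalised to Euclidean norms at
the base points, form an `ExpFamily`; covering translations are isometries of its distance.
-/

open scoped Manifold ContDiff
open Bundle Set Filter Topology

namespace Vale.Agent.P255

/-- a positive definite form is a Euclidean norm in suitable linear coordinates -/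
lemma exists_normalise (B : Form 3) (hs : ∀ u v, B u v = B v u) (hp : ∀ u, u ≠ 0 → 0 < B u u) :
    ∃ L : E3 ≃L[ℝ] E3, ∀ w, ‖L w‖ ^ 2 = B w w := by
  classical
  let β : LinearMap.BilinForm ℝ E3 := LinearMap.mk₂ ℝ (fun u v => B u v)
    (by simp) (by simp) (by simp) (by simp)
  have hβ : LinearMap.IsSymm β := ⟨fun u v => hs u v⟩
  obtain ⟨v, hv⟩ := LinearMap.BilinForm.exists_orthogonal_basis hβ
  have hv' : ∀ i j, i ≠ j → B (v i) (v j) = 0 := fun i j hij => hv hij
  have hpos : ∀ i, 0 < √(B (v i) (v i)) := fun i => Real.sqrt_pos.2 (hp _ (v.ne_zero i))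
  let w := v.unitsSMul fun i => Units.mk0 (√(B (v i) (v i)))⁻¹ (inv_ne_zero (hpos i).ne')
  have hw : ∀ i, w i = (√(B (v i) (v i)))⁻¹ • v i := fun i => by
    simp [w, Module.Basis.unitsSMul_apply, Units.smul_def]
  have hww : ∀ i j, B (w i) (w j) = if i = j then 1 else 0 := by
    intro i j
    rw [hw, hw]
    simp only [map_smul, smul_apply, smul_eq_mul]
    split_ifs with h
    · subst h
      rw [← mul_assoc, ← mul_inv, Real.mul_self_sqrt (hp _ (v.ne_zero i)).le,
        inv_mul_cancel₀ (hp _ (v.ne_zero i)).ne']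
    · rw [hv' i j h]; ring
  have hn : Module.finrank ℝ E3 = 3 := finrank_euclideanSpace_fin
  let u : Module.Basis (Fin 3) ℝ E3 := w.reindex (finCongr hn)
  have huu : ∀ i j, B (u i) (u j) = if i = j then 1 else 0 := by
    intro i j
    simp only [u, Module.Basis.reindex_apply, hww, EmbeddingLike.apply_eq_iff_eq]
  refine ⟨(u.equivFun.trans (WithLp.linearEquiv 2 ℝ (Fin 3 → ℝ)).symm).toContinuousLinearEquiv,
    fun x => ?_⟩
  have hx := u.sum_equivFun x
  conv_rhs => rw [← hx]
  simp only [map_sum, map_smul, sum_apply, smul_apply, smul_eq_mul,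
    huu, mul_ite, mul_one, mul_zero, Finset.sum_ite_eq', Finset.mem_univ, if_true]
  rw [EuclideanSpace.norm_sq_eq]
  simp [sq]

variable {M : Type} [TopologicalSpace M] [ChartedSpace E3 M] [IsManifold (𝓡 3) ∞ M]

/-- a universal cover `e` together with an invariant distance with the CN inequality -/
structure UnivCover (x₀ : M) where
  e : E3 → M
  zero : e 0 = x₀
  cover : IsCoveringMap e
  surj : Function.Surjective e
  F : ExpFamily
  deck : ∀ T : E3 → E3, Continuous T → (∀ x, e (T x) = e x) →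
    ∀ x y, F.d (T x) (T y) = F.d x y

lemma pullSq_smul (h : Metric 3 M) (e : E3 → M) (y : E3) (c : ℝ) (w : E3) :
    pullSq h e y (c • w) = c ^ 2 * pullSq h e y w := by
  let D : E3 →L[ℝ] E3 := mfderiv (𝓡 3) (𝓡 3) e y
  let g : Form 3 := h.inner (e y)
  change g (D (c • w)) (D (c • w)) = c ^ 2 * g (D w) (D w)
  simp only [map_smul, smul_apply, smul_eq_mul]
  ring

lemma pullSq_comp (h : Metric 3 M) {e : E3 → M} {f : E3 → E3} {v : E3}
    (he : MDifferentiableAt (𝓡 3) (𝓡 3) e (f v)) (hf : DifferentiableAt ℝ f v) (w : E3) :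
    pullSq h (e ∘ f) v w = pullSq h e (f v) (fderiv ℝ f v w) := by
  unfold pullSq
  rw [mfderiv_comp v he (mdifferentiableAt_iff_differentiableAt.2 hf), mfderiv_eq_fderiv]
  rfl

lemma exists_normalise_pullSq (h : Metric 3 M) (e : E3 → M) (y : E3)
    (he : Function.Injective (mfderiv (𝓡 3) (𝓡 3) e y)) :
    ∃ L : E3 ≃L[ℝ] E3, ∀ w, ‖L w‖ ^ 2 = pullSq h e y w := by
  let D : E3 →L[ℝ] E3 := mfderiv (𝓡 3) (𝓡 3) e y
  let g : Form 3 := h.inner (e y)
  let B : Form 3 := g.bilinearComp D D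
  have hBa : ∀ u v, B u v = g (D u) (D v) := fun u v => rfl
  have hgs : ∀ a b, g a b = g b a := h.symm (e y)
  have hgp : ∀ a, a ≠ 0 → 0 < g a a := h.pos (e y)
  have hD : ∀ u, D u = 0 → u = 0 := fun u hu => he (hu.trans (map_zero D).symm)
  obtain ⟨L, hL⟩ := exists_normalise B (fun u v => by rw [hBa, hBa, hgs])
    (fun u hu => by rw [hBa]; exact hgp _ fun h0 => hu (hD u h0))
  exact ⟨L, fun w => by rw [hL, hBa]; rfl⟩

/-- the metric in a chart computes `pullSq` -/
lemma pullSq_chart_of_contMDiff (h : Metric 3 M) {e : E3 → M} (he : ContMDiff (𝓡 3) (𝓡 3) 1 e) (q : M) {y : E3}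
    (hy : e y ∈ (extChartAt (𝓡 3) q).source) (w : E3) :
    pullSq h e y w = metricInChart h q (extChartAt (𝓡 3) q (e y))
      (fderiv ℝ (extChartAt (𝓡 3) q ∘ e) y w) (fderiv ℝ (extChartAt (𝓡 3) q ∘ e) y w) := by
  rw [pullSq, inner_eq_metricInChart h q hy, ← mfderiv_eq_fderiv,
    mfderiv_comp y (mdifferentiableAt_extChartAt (by simpa using hy))
      (he.mdifferentiableAt (by norm_num))]
  rfl

lemma contDiffAt_chart_comp {e : E3 → M} (he : ContMDiff (𝓡 3) (𝓡 3) 1 e) (q : M) {y : E3}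
    (hy : e y ∈ (extChartAt (𝓡 3) q).source) : ContDiffAt ℝ 1 (extChartAt (𝓡 3) q ∘ e) y :=
  contMDiffAt_iff_contDiffAt.1
    (((contMDiffAt_extChartAt' (n := ∞) (by simpa using hy)).of_le (by norm_num)).comp y (he y))

lemma continuous_pullSq (h : Metric 3 M) {e : E3 → M} (he : ContMDiff (𝓡 3) (𝓡 3) 1 e) :
    Continuous fun a : E3 × E3 => pullSq h e a.1 a.2 := by
  refine continuous_iff_continuousAt.2 fun a => ?_
  set q := e a.1 with hq
  have hq' : e a.1 ∈ (extChartAt (𝓡 3) q).source := mem_extChartAt_source q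
  have hsrc : ∀ᶠ y in 𝓝 a.1, e y ∈ (extChartAt (𝓡 3) q).source :=
    he.continuous.continuousAt.preimage_mem_nhds (extChartAt_source_mem_nhds' hq')
  set f := extChartAt (𝓡 3) q ∘ e with hf
  have hf1 : ContDiffAt ℝ 1 f a.1 := contDiffAt_chart_comp he q hq'
  have hG : ContinuousAt (metricInChart h q) (f a.1) :=
    (metricInChart_near h q ((extChartAt (𝓡 3) q).map_source hq')).smooth.self_of_nhds.continuousAt
  have hw : ContinuousAt (fun b : E3 × E3 => fderiv ℝ f b.1 b.2) a :=
    ((hf1.continuousAt_fderiv (by norm_num)).comp continuousAt_fst).clm_apply continuousAt_snd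
  have hGb : ContinuousAt (fun b : E3 × E3 => metricInChart h q (f b.1)) a :=
    hG.comp (x := a) (f := fun b : E3 × E3 => f b.1) (hf1.continuousAt.comp continuousAt_fst)
  refine ((hGb.clm_apply hw).clm_apply hw).congr ?_
  filter_upwards [(continuousAt_fst (p := a)).eventually hsrc] with b hb
  exact (pullSq_chart_of_contMDiff h he q hb b.2).symm

/-- a continuous lift of a `C¹` map through an expanding map is `C¹` -/
lemma contDiff_lift (h : Metric 3 M) {e : E3 → M} (he : ContMDiff (𝓡 3) (𝓡 3) 1 e)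
    (hexp : ∀ v w : E3, ‖w‖ ^ 2 ≤ pullSq h e v w) {G : E3 → M} (hG : ContMDiff (𝓡 3) (𝓡 3) 1 G)
    {φ : E3 → E3} (hφ : Continuous φ) (hlift : ∀ v, e (φ v) = G v) : ContDiff ℝ 1 φ := by
  refine contDiff_iff_contDiffAt.2 fun v => ?_
  set y := φ v with hy
  set q := e y with hq
  have hq' : e y ∈ (extChartAt (𝓡 3) q).source := mem_extChartAt_source q
  set f := extChartAt (𝓡 3) q ∘ e with hf
  have hf1 : ContDiffAt ℝ 1 f y := contDiffAt_chart_comp he q hq'
  have hinj : Function.Injective (fderiv ℝ f y) := by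
    refine (injective_iff_map_eq_zero _).2 fun w hw => ?_
    have h2 := hexp y w
    rw [pullSq_chart_of_contMDiff h he q hq' w, ← hf, hw] at h2
    simpa using le_antisymm (by simpa using h2) (sq_nonneg ‖w‖)
  let D : E3 ≃L[ℝ] E3 := (LinearEquiv.ofBijective (fderiv ℝ f y).toLinearMap
    ⟨hinj, LinearMap.injective_iff_surjective.1 hinj⟩).toContinuousLinearEquiv
  have hDe : (D : E3 →L[ℝ] E3) = fderiv ℝ f y := ContinuousLinearMap.ext fun w => rfl
  have hD : HasFDerivAt f (D : E3 →L[ℝ] E3) y := by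
    rw [hDe]; exact (hf1.differentiableAt (by norm_num)).hasFDerivAt
  have hst := hf1.hasStrictFDerivAt' hD (by norm_num)
  have hqG : G v ∈ (extChartAt (𝓡 3) q).source := by rw [← hlift]; exact hq'
  have hg := contDiffAt_chart_comp hG q hqG
  have hinv : ContDiffAt ℝ 1 (hf1.localInverse hD (by norm_num))
      ((extChartAt (𝓡 3) q ∘ G) v) := by
    have := hf1.to_localInverse hD (by norm_num)
    convert this using 1
    simp [f, y, hlift]
  refine (hinv.comp v hg).congr_of_eventuallyEq ?_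
  filter_upwards [(hφ.tendsto v).eventually hst.eventually_left_inverse] with u hu
  simp only [Function.comp_apply, ← hlift u]
  exact hu.symm

theorem univCover_nonempty [T2Space M] [CompactSpace M] [ConnectedSpace M] (h : Metric 3 M)
    (hh : NonposCurvature h) (x₀ : M) : Nonempty (UnivCover x₀) := by
  let X : ∀ p, ExpMap h p := fun p => (expMap_nonempty h hh p).some
  have hB : ∀ p : M, ∃ L : E3 ≃L[ℝ] E3, ∀ w, ‖L w‖ ^ 2 = pullSq h (X p).e 0 w := fun p =>
    exists_normalise_pullSq h (X p).e 0 (X p).bijective₀.1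
  choose L hL using hB
  let G : M → E3 → M := fun p => (X p).e ∘ (L p).symm
  have hG1 : ∀ p, ContMDiff (𝓡 3) (𝓡 3) 1 (G p) := fun p =>
    (X p).smooth.comp (L p).symm.contDiff.contMDiff
  have hG0 : ∀ p, G p 0 = p := fun p => by simp [G, (X p).zero]
  have hpull : ∀ p v w, pullSq h (G p) v w = pullSq h (X p).e ((L p).symm v) ((L p).symm w) := by
    intro p v w
    rw [pullSq_comp h ((X p).smooth.mdifferentiableAt (by norm_num)) (L p).symm.differentiableAt,
      (L p).symm.fderiv]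
    rfl
  have hexp : ∀ p v w, ‖w‖ ^ 2 ≤ pullSq h (G p) v w := by
    intro p v w
    rw [hpull]
    refine le_trans (le_of_eq ?_) ((X p).expand ((L p).symm v) ((L p).symm w))
    rw [← hL, (L p).apply_symm_apply]
  have hrad : ∀ p v (t : ℝ), pullSq h (G p) (t • v) v = ‖v‖ ^ 2 := by
    intro p v t
    rw [hpull, map_smul, (X p).radial, ← hL, (L p).apply_symm_apply]
  have hcov : ∀ p, IsCoveringMap (G p) ∧ Function.Surjective (G p) := fun p =>
    ⟨(X p).isCoveringMap.1.comp_homeomorph (L p).symm.toHomeomorph,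
      (X p).isCoveringMap.2.comp (L p).symm.surjective⟩
  have hlift : ∀ p q (y : E3), G q y = p →
      ∃ φ : E3 → E3, Continuous φ ∧ φ 0 = y ∧ ∀ v, G q (φ v) = G p v := by
    intro p q y hy
    obtain ⟨φ, ⟨h0, hc⟩, -⟩ := (hcov q).1.existsUnique_continuousMap_lifts
      ⟨G p, (hG1 p).continuous⟩ 0 y (by simp [hG0, hy])
    exact ⟨φ, φ.continuous, h0, fun v => congrFun hc v⟩
  set e := G x₀ with he
  have key : ∀ x, ∃ φ : E3 ≃ₜ E3, φ 0 = x ∧ ∀ v, e (φ v) = G (e x) v := by
    intro x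
    obtain ⟨φ, hφc, hφ0, hφ⟩ := hlift (e x) x₀ x rfl
    obtain ⟨y, hy⟩ := (hcov (e x)).2 x₀
    obtain ⟨ψ, hψc, hψ0, hψ⟩ := hlift x₀ (e x) y hy
    -- correct the base point: the lift of `e` through `G (e x)` with `x ↦ 0`
    obtain ⟨ψ', ⟨hψ'x, hψ'⟩, -⟩ := (hcov (e x)).1.existsUnique_continuousMap_lifts
      ⟨e, (hG1 x₀).continuous⟩ x 0 (hG0 (e x))
    have hψ'' : ∀ u, G (e x) (ψ' u) = e u := fun u => congrFun hψ' u
    have e1 : (ψ' : E3 → E3) ∘ φ = id :=
      (hcov (e x)).1.eq_of_comp_eq (ψ'.continuous.comp hφc) continuous_id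
        (funext fun v => by simp [hψ'', hφ, e]) 0 (by simp [hφ0, hψ'x])
    have e2 : φ ∘ (ψ' : E3 → E3) = id :=
      (hcov x₀).1.eq_of_comp_eq (hφc.comp ψ'.continuous) continuous_id
        (funext fun v => by simp [hφ, hψ'', e]) x (by simp [hφ0, hψ'x])
    exact ⟨⟨⟨φ, ψ', congrFun e1, congrFun e2⟩, hφc, ψ'.continuous⟩, hφ0, hφ⟩
  choose Φ hΦ0 hΦ using key
  have hΦ1 : ∀ x, ContDiff ℝ 1 (Φ x) := fun x =>
    contDiff_lift h (hG1 x₀) (hexp x₀) (hG1 (e x)) (Φ x).continuous (hΦ x)
  have hΦpull : ∀ x v w, pullSq h e (Φ x v) (fderiv ℝ (Φ x) v w) = pullSq h (G (e x)) v w := by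
    intro x v w
    rw [← pullSq_comp h ((hG1 x₀).mdifferentiableAt (by norm_num))
      ((hΦ1 x).differentiable (by norm_num) v), show e ∘ Φ x = G (e x) from funext (hΦ x)]
  let F : ExpFamily :=
    { Q := fun y w => pullSq h e y w
      Q_cont := continuous_pullSq h (hG1 x₀)
      Q_smul := pullSq_smul h e
      Φ := Φ
      zero := hΦ0
      smooth := hΦ1
      radial := fun x v t => by rw [hΦpull, hrad]
      expand := fun x v w => by rw [hΦpull]; exact hexp _ v w }
  refine ⟨⟨e, hG0 x₀, (hcov x₀).1, (hcov x₀).2, F, fun T hT hTe x y => ?_⟩⟩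
  refine F.d_map (L := fun _ v => v) (fun _ _ => rfl) (fun z v => ?_) x y
  have hz : T ∘ Φ z = Φ (T z) :=
    (hcov x₀).1.eq_of_comp_eq (hT.comp (Φ z).continuous) (Φ (T z)).continuous
      (funext fun u => by simp only [Function.comp_apply, ← he, hTe, hΦ]) 0 (by simp [hΦ0])
  exact congrFun hz v

end Vale.Agent.P255
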