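import Vale.Agent.P255.Riem.Defs

/-!
# P255 module D2d: lifting segments through an expanding map

If `f` is `C¹` on an open set `W`, expands by the factor `k`, maps `W` into a convex set `B` and is
proper in the sequential sense over `B`, then segments in `B` lift to `W`, continuously in their
endpoints.
-/

open Set Filter Topology

namespace Vale.Agent.P255

/-- an expanding map over a convex set -/
structure ExpandsOver (f : E3 → E3) (W B : Set E3) (k : ℝ) : Prop where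
  isOpen : IsOpen W
  convex : Convex ℝ B
  mapsTo : MapsTo f W B
  kpos : 0 < k
  smooth : ∀ x ∈ W, ContDiffAt ℝ 1 f x
  expand : ∀ x ∈ W, ∀ w, k * ‖w‖ ≤ ‖fderiv ℝ f x w‖
  complete : ∀ (u : ℕ → E3) (z y : E3), (∀ n, u n ∈ W) → Tendsto u atTop (𝓝 z) →
    Tendsto (fun n => f (u n)) atTop (𝓝 y) → y ∈ B → z ∈ W ∧ f z = y

namespace ExpandsOver

variable {f : E3 → E3} {W B : Set E3} {k : ℝ}

/-- a local inverse, with the bound on its differential -/
theorem exists_chart (H : ExpandsOver f W B k) {x : E3} (hx : x ∈ W) :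
    ∃ φ : OpenPartialHomeomorph E3 E3, x ∈ φ.source ∧ φ.source ⊆ W ∧ (φ : E3 → E3) = f ∧
      ∀ y ∈ φ.target, ∃ D : E3 →L[ℝ] E3, HasFDerivAt φ.symm D y ∧
        ∀ w, ‖D w‖ ≤ ‖w‖ / k := by
  have hinv : ∀ z ∈ W, ∃ A : E3 ≃L[ℝ] E3, HasFDerivAt f (A : E3 →L[ℝ] E3) z := by
    intro z hz
    have hi : Function.Injective (fderiv ℝ f z).toLinearMap := by
      refine (injective_iff_map_eq_zero _).2 fun w hw => ?_
      have h := H.expand z hz w
      have hw' : fderiv ℝ f z w = 0 := hw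
      rw [hw', norm_zero] at h
      have := H.kpos
      simpa using nonpos_of_mul_nonpos_right h this
    let A := (LinearEquiv.ofBijective (fderiv ℝ f z).toLinearMap
      ⟨hi, LinearMap.injective_iff_surjective.1 hi⟩).toContinuousLinearEquiv
    refine ⟨A, ?_⟩
    convert! ((H.smooth z hz).differentiableAt (by norm_num)).hasFDerivAt using 1
  obtain ⟨A, hA⟩ := hinv x hx
  let φ₀ := (H.smooth x hx).toOpenPartialHomeomorph f hA (by norm_num)
  let φ := φ₀.restrOpen W H.isOpen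
  have hcoe : (φ : E3 → E3) = f := rfl
  refine ⟨φ, ⟨(H.smooth x hx).mem_toOpenPartialHomeomorph_source hA (by norm_num), hx⟩,
    fun z hz => hz.2, hcoe, fun y hy => ?_⟩
  have hz : φ.symm y ∈ W := (φ.map_target hy).2
  obtain ⟨C, hC⟩ := hinv _ hz
  refine ⟨(C.symm : E3 →L[ℝ] E3), φ.hasFDerivAt_symm hy (by rw [hcoe]; exact hC), fun w => ?_⟩
  rw [le_div_iff₀ H.kpos, mul_comm]
  have h := H.expand _ hz (C.symm w)
  rw [hC.fderiv] at h
  simpa using h

/-- `f` on `W` as a map of subspaces -/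
def proj (f : E3 → E3) (W : Set E3) : W → E3 := fun z => f z

theorem isLocalHomeomorph (H : ExpandsOver f W B k) : IsLocalHomeomorph (proj f W) := by
  refine IsLocalHomeomorph.mk _ fun z => ?_
  obtain ⟨φ, hφ, -, hc, -⟩ := H.exists_chart z.2
  have : Nonempty W := ⟨z⟩
  refine ⟨(H.isOpen.isOpenEmbedding_subtypeVal.toOpenPartialHomeomorph (Subtype.val : W → E3)).trans φ,
    ⟨mem_univ _, hφ⟩, fun a _ => ?_⟩
  simp [proj, hc]

theorem eq_of_lifts (H : ExpandsOver f W B k) {A : Type*} [TopologicalSpace A] [PreconnectedSpace A]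
    {g₁ g₂ : A → W} (h₁ : Continuous g₁) (h₂ : Continuous g₂) (he : ∀ a, f (g₁ a) = f (g₂ a))
    (a : A) (ha : g₁ a = g₂ a) : g₁ = g₂ :=
  (T2Space.isSeparatedMap (proj f W)).eq_of_comp_eq H.isLocalHomeomorph.isLocallyInjective h₁ h₂
    (funext he) a ha

/-- `w` lifts the segment from `y₀` to `y₁` up to time `T`, starting at `v` -/
def IsLift (f : E3 → E3) (W : Set E3) (y₀ y₁ v : E3) (T : ℝ) (w : ℝ → E3) : Prop :=
  ContinuousOn w (Icc 0 T) ∧ w 0 = v ∧
    ∀ t ∈ Icc (0 : ℝ) T, w t ∈ W ∧ f (w t) = y₀ + t • (y₁ - y₀)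

variable {y₀ y₁ v : E3}

theorem lipschitz_of_lift (H : ExpandsOver f W B k) {T : ℝ} {w : ℝ → E3}
    (hw : IsLift f W y₀ y₁ v T w) {s t : ℝ} (hs : 0 ≤ s) (hst : s ≤ t) (ht : t ≤ T) :
    ‖w t - w s‖ ≤ ‖y₁ - y₀‖ / k * (t - s) := by
  have hsub : Icc s t ⊆ Icc (0 : ℝ) T := Icc_subset_Icc hs ht
  set g : ℝ → E3 := fun u => y₀ + u • (y₁ - y₀) with hg
  have hd : ∀ u ∈ Ico s t, ∃ d, HasDerivWithinAt w d (Ici u) u ∧ ‖d‖ ≤ ‖y₁ - y₀‖ / k := by
    intro u hu
    have huT : u ∈ Icc (0 : ℝ) T := hsub (Ico_subset_Icc_self hu)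
    obtain ⟨φ, hφ, -, hc, hD⟩ := H.exists_chart (hw.2.2 u huT).1
    have hgu : φ (w u) = g u := by rw [hc]; exact (hw.2.2 u huT).2
    obtain ⟨D, hD, hDb⟩ := hD (g u) (hgu ▸ φ.map_source hφ)
    have hgd : HasDerivAt g (y₁ - y₀) u := by
      simpa [hg] using ((hasDerivAt_id u).smul_const (y₁ - y₀)).const_add y₀
    refine ⟨D (y₁ - y₀), ?_, hDb _⟩
    have hnhds : Icc (0 : ℝ) T ∈ 𝓝[Ici u] u :=
      mem_of_superset (Icc_mem_nhdsGE (lt_of_lt_of_le hu.2 ht)) (Icc_subset_Icc huT.1 le_rfl)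
    have hev : w =ᶠ[𝓝[Ici u] u] φ.symm ∘ g := by
      have hcw : ContinuousWithinAt w (Ici u) u :=
        (hw.1 u huT).mono_of_mem_nhdsWithin hnhds
      filter_upwards [hnhds, hcw (φ.open_source.mem_nhds hφ)] with a ha ha'
      simp only [Function.comp_apply]
      rw [show g a = φ (w a) by rw [hc]; exact (hw.2.2 a ha).2.symm, φ.left_inv ha']
    exact ((hD.comp_hasDerivAt u hgd).hasDerivWithinAt).congr_of_eventuallyEq hev
      (by simp only [Function.comp_apply]; rw [← hgu, φ.left_inv hφ])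
  choose! d hd using hd
  exact norm_image_sub_le_of_norm_deriv_right_le_segment (hw.1.mono hsub)
    (fun u hu => (hd u hu).1) (fun u hu => (hd u hu).2) t (right_mem_Icc.2 hst)

theorem lift_unique (H : ExpandsOver f W B k) {T : ℝ} {w w' : ℝ → E3}
    (hw : IsLift f W y₀ y₁ v T w) (hw' : IsLift f W y₀ y₁ v T w') {t : ℝ}
    (ht : t ∈ Icc (0 : ℝ) T) : w t = w' t := by
  have : PreconnectedSpace (Icc (0 : ℝ) T) := Subtype.preconnectedSpace isPreconnected_Icc
  have h := H.eq_of_lifts (A := Icc (0 : ℝ) T) (g₁ := fun a => ⟨w a, (hw.2.2 a a.2).1⟩)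
    (g₂ := fun a => ⟨w' a, (hw'.2.2 a a.2).1⟩)
    (hw.1.domRestrict.subtype_mk _) (hw'.1.domRestrict.subtype_mk _)
    (fun a => (hw.2.2 a a.2).2.trans (hw'.2.2 a a.2).2.symm)
    ⟨0, le_rfl, ht.1.trans ht.2⟩ (Subtype.ext (hw.2.1.trans hw'.2.1.symm))
  exact congrArg Subtype.val (congr_fun h ⟨t, ht⟩)

theorem lift_mono {T T' : ℝ} {w : ℝ → E3} (hw : IsLift f W y₀ y₁ v T w) (h : T' ≤ T) :
    IsLift f W y₀ y₁ v T' w :=
  ⟨hw.1.mono (Icc_subset_Icc le_rfl h), hw.2.1, fun t ht => hw.2.2 t ⟨ht.1, ht.2.trans h⟩⟩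

theorem lift_extend (H : ExpandsOver f W B k) {T : ℝ} (hT : 0 ≤ T) {w : ℝ → E3}
    (hw : IsLift f W y₀ y₁ v T w) : ∃ T' > T, ∃ w', IsLift f W y₀ y₁ v T' w' := by
  obtain ⟨φ, hφ, hsW, hc, -⟩ := H.exists_chart (hw.2.2 T ⟨hT, le_rfl⟩).1
  set g : ℝ → E3 := fun u => y₀ + u • (y₁ - y₀) with hg
  have hgT : φ (w T) = g T := by rw [hc]; exact (hw.2.2 T ⟨hT, le_rfl⟩).2
  have hgc : Continuous g := by fun_prop
  obtain ⟨ε, hε, hball⟩ := Metric.mem_nhds_iff.1
    (hgc.continuousAt.preimage_mem_nhds (φ.open_target.mem_nhds (hgT ▸ φ.map_source hφ)))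
  refine ⟨T + ε / 2, by linarith, fun u => if u ≤ T then w u else φ.symm (g u), ?_, ?_, ?_⟩
  · refine ContinuousOn.if (fun a ha => ?_) (hw.1.mono fun a ha => ?_)
      (φ.continuousOn_symm.comp hgc.continuousOn fun a ha => ?_)
    · obtain rfl : a = T := by
        simpa [show {a : ℝ | a ≤ T} = Iic T from rfl, frontier_Iic] using ha.2
      rw [← hgT, φ.left_inv hφ]
    · rw [show {a : ℝ | a ≤ T} = Iic T from rfl, closure_Iic] at ha
      exact ⟨ha.1.1, ha.2⟩
    · have h2 : T ≤ a := by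
        have := ha.2
        rwa [show {a : ℝ | ¬a ≤ T} = Ioi T by ext; simp, closure_Ioi] at this
      refine hball (Metric.mem_ball.2 ?_)
      rw [Real.dist_eq, abs_of_nonneg (by linarith)]
      linarith [ha.1.2]
  · simp [hT, hw.2.1]
  · intro t ht
    by_cases h : t ≤ T
    · simpa [h] using hw.2.2 t ⟨ht.1, h⟩
    · have : g t ∈ φ.target := by
        refine hball (Metric.mem_ball.2 ?_)
        rw [Real.dist_eq, abs_of_nonneg (by linarith [not_le.1 h])]
        linarith [ht.2]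
      refine ⟨by simpa [h] using hsW (φ.map_target this), ?_⟩
      simp only [if_neg h]
      rw [← hc]
      exact φ.right_inv this

theorem exists_lift (H : ExpandsOver f W B k) (hv : v ∈ W) (hy₁ : y₁ ∈ B) :
    ∃ w, IsLift f W (f v) y₁ v 1 w := by
  set y₀ := f v
  by_contra hne
  let S : Set ℝ := {T | 0 ≤ T ∧ ∃ w, IsLift f W y₀ y₁ v T w}
  have h0 : (0 : ℝ) ∈ S := ⟨le_rfl, fun _ => v, continuousOn_const, rfl, fun t ht => ⟨hv, by
    obtain rfl : t = 0 := le_antisymm ht.2 ht.1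
    simp [y₀]⟩⟩
  have hS : ∀ T ∈ S, T < 1 := fun T ⟨_, w, hw⟩ =>
    not_le.1 fun h => hne ⟨w, lift_mono hw h⟩
  have hbdd : BddAbove S := ⟨1, fun T hT => (hS T hT).le⟩
  have hlow : ∀ t < sSup S, ∃ T ∈ S, t < T := fun t ht => exists_lt_of_lt_csSup ⟨0, h0⟩ ht
  choose! Tf hTf using hlow
  have hlifts : ∀ T, ∀ h : T ∈ S, ∃ w, IsLift f W y₀ y₁ v T w := fun T h => h.2
  choose! wf hwf using hlifts
  let ω : ℝ → E3 := fun t => wf (Tf t) t
  set b := sSup S with hb
  have hb0 : 0 ≤ b := le_csSup hbdd h0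
  have hωeq : ∀ t T, 0 ≤ t → t < b → T ∈ S → t ≤ T → wf T t = ω t := by
    intro t T ht htb hT htT
    have h1 := (hTf t htb)
    rcases le_total T (Tf t) with h | h
    · exact H.lift_unique (hwf T hT) (lift_mono (hwf _ h1.1) h) ⟨ht, htT⟩
    · exact H.lift_unique (lift_mono (hwf T hT) h) (hwf _ h1.1) ⟨ht, h1.2.le⟩
  set L := ‖y₁ - y₀‖ / k with hL
  have hlip : LipschitzOnWith (Real.toNNReal L) ω (Ico 0 b) := by
    refine lipschitzOnWith_iff_norm_sub_le.2 fun s hs t ht => ?_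
    rw [Real.coe_toNNReal _ (div_nonneg (norm_nonneg _) H.kpos.le)]
    wlog hst : s ≤ t generalizing s t
    · rw [norm_sub_rev, norm_sub_rev s t]
      exact this t ht s hs (le_of_not_ge hst)
    have h1 := hTf t ht.2
    rw [norm_sub_rev, ← hωeq s _ hs.1 hs.2 h1.1 (hst.trans h1.2.le),
      norm_sub_rev, Real.norm_eq_abs, abs_of_nonpos (by linarith)]
    rw [show -(s - t) = t - s by ring, norm_sub_rev]
    exact H.lipschitz_of_lift (hwf _ h1.1) hs.1 hst h1.2.le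
  obtain ⟨ω', hω'lip, heq⟩ := hlip.extend_finite_dimension
  have key : ∃ w, IsLift f W y₀ y₁ v b w := by
    rcases hb0.lt_or_eq with hbpos | hbz
    swap
    · exact ⟨wf 0, hbz ▸ hwf 0 h0⟩
    refine ⟨ω', hω'lip.continuous.continuousOn, ?_, ?_⟩
    · rw [← heq ⟨le_rfl, hbpos⟩, ← hωeq 0 0 le_rfl hbpos h0 le_rfl]
      exact (hwf 0 h0).2.1
    intro t ht
    have hin : ∀ s ∈ Ico 0 b, ω' s ∈ W ∧ f (ω' s) = y₀ + s • (y₁ - y₀) := fun s hs => by
      rw [← heq hs]
      exact (hwf _ (hTf s hs.2).1).2.2 s ⟨hs.1, (hTf s hs.2).2.le⟩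
    rcases ht.2.lt_or_eq with htb | rfl
    · exact hin t ⟨ht.1, htb⟩
    let u : ℕ → ℝ := fun n => b * (1 - 1 / ((n : ℝ) + 1))
    have hu : Tendsto u atTop (𝓝 b) := by
      simpa [u] using
        ((tendsto_one_div_add_atTop_nhds_zero_nat (𝕜 := ℝ)).const_sub 1).const_mul b
    have hmem : ∀ n, u n ∈ Ico 0 b := fun n => by
      have h1 : 0 < 1 / ((n : ℝ) + 1) := by positivity
      have h2 : 1 / ((n : ℝ) + 1) ≤ 1 := by
        rw [div_le_one (by positivity)]; linarith [n.cast_nonneg (α := ℝ)]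
      constructor
      · exact mul_nonneg hb0 (by linarith)
      · nlinarith
    refine H.complete (fun n => ω' (u n)) _ _ (fun n => (hin _ (hmem n)).1)
      ((hω'lip.continuous.tendsto _).comp hu) ?_ ?_
    · have hc : Continuous fun s : ℝ => y₀ + s • (y₁ - y₀) := by fun_prop
      exact ((hc.tendsto _).comp hu).congr fun n => ((hin _ (hmem n)).2).symm
    · exact H.convex.add_smul_sub_mem (H.mapsTo hv) hy₁
        ⟨hb0, csSup_le ⟨0, h0⟩ fun T hT => (hS T hT).le⟩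
  obtain ⟨w, hw⟩ := key
  obtain ⟨T', hT', w', hw'⟩ := H.lift_extend hb0 hw
  have := le_csSup hbdd (show T' ∈ S from ⟨hb0.trans hT'.le, w', hw'⟩)
  linarith

/-- endpoints of lifted segments, continuously in a parameter -/
theorem exists_endpoint (H : ExpandsOver f W B k) {A : Type*} [TopologicalSpace A]
    (st : A → W) (hst : Continuous st) (y : A → E3) (hy : Continuous y) (hyB : ∀ a, y a ∈ B) :
    ∃ Γ : unitInterval × A → W, Continuous Γ ∧ (∀ a, Γ (0, a) = st a) ∧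
      (∀ a, f (Γ (1, a)) = y a) ∧
      ∀ t a, f (Γ (t, a)) = f (st a) + (t : ℝ) • (y a - f (st a)) := by
  choose w hw using fun a => H.exists_lift (st a).2 (hyB a)
  let Γ : unitInterval × A → W := fun q => ⟨w q.2 q.1, ((hw q.2).2.2 q.1 q.1.2).1⟩
  have hΓ : ∀ t a, f (Γ (t, a)) = f (st a) + (t : ℝ) • (y a - f (st a)) :=
    fun t a => ((hw a).2.2 t t.2).2
  have hp : Continuous (proj f W) := H.isLocalHomeomorph.continuous
  refine ⟨Γ, ?_, fun a => Subtype.ext (hw a).2.1, fun a => by rw [hΓ]; simp, hΓ⟩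
  refine H.isLocalHomeomorph.continuous_lift (T2Space.isSeparatedMap _)
    ⟨fun q => proj f W (st q.2) + (q.1 : ℝ) • (y q.2 - proj f W (st q.2)), by fun_prop⟩
    (funext fun q => hΓ q.1 q.2) ?_ (fun a => ?_)
  · convert hst using 1
    exact funext fun a => Subtype.ext (hw a).2.1
  · exact ((hw a).1.comp_continuous continuous_subtype_val fun t => t.2).subtype_mk _

/-- endpoints of lifts determine their starting points -/
theorem start_unique (H : ExpandsOver f W B k) {g₁ g₂ : unitInterval → W} (h₁ : Continuous g₁)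
    (h₂ : Continuous g₂) (he : ∀ t, f (g₁ t) = f (g₂ t)) (h : g₁ 1 = g₂ 1) : g₁ 0 = g₂ 0 :=
  congr_fun (H.eq_of_lifts h₁ h₂ he 1 h) 0

end ExpandsOver

end Vale.Agent.P255
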