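import Vale.Agent.P255.NPC.ExpMap
import Vale.Agent.P255.NPC.SegmentLift

/-!
# P255 module D2d: the exponential map is a covering

A `C¹` map `E3 → M` whose differential expands a fixed norm lifts the straight segments of every
chart, continuously in the endpoints, hence evenly covers small coordinate balls.
-/

open scoped Manifold ContDiff
open Bundle Set Filter Topology

namespace Vale.Agent.P255

variable {M : Type} [TopologicalSpace M] [ChartedSpace E3 M] [IsManifold (𝓡 3) ∞ M]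

noncomputable local instance : NormedAddCommGroup (E3 →L[ℝ] ℝ) :=
  ContinuousLinearMap.toNormedAddCommGroup

noncomputable local instance : NormedAddCommGroup (Form 3) :=
  ContinuousLinearMap.toNormedAddCommGroup

omit [IsManifold (𝓡 3) ∞ M] in
/-- a positive form is bounded below by a multiple of the squared norm -/
theorem form_lower (B : Form 3) (hB : ∀ w, w ≠ 0 → 0 < B w w) :
    ∃ c : ℝ, 0 < c ∧ ∀ w, c * ‖w‖ ^ 2 ≤ B w w := by
  have hne : (Metric.sphere (0 : E3) 1).Nonempty := NormedSpace.sphere_nonempty.2 zero_le_one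
  obtain ⟨w₀, hw₀, hmin⟩ := (isCompact_sphere (0 : E3) 1).exists_isMinOn hne
    (f := fun w => B w w) (by fun_prop)
  have hw₀' : w₀ ≠ 0 := fun h => by simp [h] at hw₀
  refine ⟨B w₀ w₀, hB w₀ hw₀', fun w => ?_⟩
  rcases eq_or_ne w 0 with rfl | hw
  · simp
  have hn : ‖w‖ ≠ 0 := norm_ne_zero_iff.2 hw
  have h := hmin (show ‖w‖⁻¹ • w ∈ Metric.sphere (0 : E3) 1 by
    simp [norm_smul, inv_mul_cancel₀ hn])
  simp only [Set.mem_ofPred_eq, map_smul, smul_eq_mul, _root_.smul_apply] at h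
  calc B w₀ w₀ * ‖w‖ ^ 2 ≤ ‖w‖⁻¹ * (‖w‖⁻¹ * B w w) * ‖w‖ ^ 2 :=
        mul_le_mul_of_nonneg_right h (by positivity)
    _ = B w w := by field_simp

/-- coordinate balls over which the exponential map expands -/
theorem ExpMap.exists_expandsOver [T2Space M] {h : Metric 3 M} {p : M} (E : ExpMap h p) (q : M) :
    ∃ (U : Set M) (B : Set E3) (k : ℝ), q ∈ U ∧ IsOpen U ∧ U ⊆ (extChartAt (𝓡 3) q).source ∧
      (∀ u ∈ U, extChartAt (𝓡 3) q u ∈ B) ∧ extChartAt (𝓡 3) q q ∈ B ∧
      ExpandsOver (fun v => extChartAt (𝓡 3) q (E.e v)) (E.e ⁻¹' U) B k := by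
  set χ := extChartAt (𝓡 3) q with hχ
  set G := metricInChart h q with hG
  have hq : q ∈ χ.source := mem_extChartAt_source q
  have hy : χ q ∈ χ.target := χ.map_source hq
  obtain ⟨c, hc, hclow⟩ : ∃ c : ℝ, 0 < c ∧ ∀ w, c * ‖w‖ ^ 2 ≤ pullSq h E.e 0 w := by
    let L : E3 →L[ℝ] E3 := mfderiv (𝓡 3) (𝓡 3) E.e 0
    let B₀ : Form 3 := h.inner (E.e 0)
    refine form_lower (B₀.bilinearComp L L) fun w hw => ?_
    have : L w ≠ 0 := fun h0 => hw (E.bijective₀.1 (h0.trans (map_zero L).symm))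
    exact h.pos (E.e 0) (L w) this
  have hGc : ContinuousAt G (χ q) :=
    (metricInChart_near h q hy).smooth.self_of_nhds.continuousAt
  obtain ⟨ρ, hρ, hball⟩ := Metric.mem_nhds_iff.1
    (inter_mem ((isOpen_extChartAt_target q).mem_nhds hy)
      (hGc.norm.preimage_mem_nhds (Iio_mem_nhds (lt_add_one ‖G (χ q)‖))))
  set C := ‖G (χ q)‖ + 1 with hC
  have hC0 : 0 < C := by positivity
  refine ⟨χ.source ∩ χ ⁻¹' Metric.ball (χ q) ρ, Metric.ball (χ q) ρ, √(c / C),
    ⟨hq, Metric.mem_ball_self hρ⟩,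
    (continuousOn_extChartAt q).isOpen_inter_preimage (isOpen_extChartAt_source q) Metric.isOpen_ball,
    inter_subset_left, fun u hu => hu.2, Metric.mem_ball_self hρ, ?_⟩
  have hopen : IsOpen (E.e ⁻¹' (χ.source ∩ χ ⁻¹' Metric.ball (χ q) ρ)) :=
    ((continuousOn_extChartAt q).isOpen_inter_preimage (isOpen_extChartAt_source q)
      Metric.isOpen_ball).preimage E.smooth.continuous
  have hsm : ∀ v, E.e v ∈ χ.source → ContMDiffAt (𝓡 3) (𝓡 3) 1 (fun a => χ (E.e a)) v := by
    intro v hv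
    rw [hχ, extChartAt_source] at hv
    exact (contMDiffAt_extChartAt' hv).comp v (E.smooth v)
  refine ⟨hopen, convex_ball _ _, fun v hv => hv.2, Real.sqrt_pos.2 (div_pos hc hC0),
    fun v hv => contMDiffAt_iff_contDiffAt.1 (hsm v hv.1), fun v hv w => ?_, ?_⟩
  · set Dw := fderiv ℝ (fun a => χ (E.e a)) v w with hDw
    have hv' : E.e v ∈ (chartAt E3 q).source := by
      have := hv.1
      rwa [hχ, extChartAt_source] at this
    have hDeq : Dw = mfderiv (𝓡 3) (𝓡 3) χ (E.e v) (mfderiv (𝓡 3) (𝓡 3) E.e v w) := by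
      rw [hDw, ← mfderiv_eq_fderiv,
        show (fun a => χ (E.e a)) = χ ∘ E.e from rfl,
        mfderiv_comp v ((contMDiffAt_extChartAt' (n := 1) hv').mdifferentiableAt (by norm_num))
          ((E.smooth v).mdifferentiableAt (by norm_num))]
      rfl
    have hle : c * ‖w‖ ^ 2 ≤ C * ‖Dw‖ ^ 2 := by
      refine (hclow w).trans ((E.expand v w).trans ?_)
      rw [pullSq, inner_eq_metricInChart h q hv.1, ← hDeq]
      refine (le_abs_self _).trans ((ContinuousLinearMap.le_opNorm₂ (G (χ (E.e v))) Dw Dw).trans ?_)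
      have hb : ‖G (χ (E.e v))‖ ≤ C := le_of_lt (hball hv.2).2
      calc ‖G (χ (E.e v))‖ * ‖Dw‖ * ‖Dw‖ ≤ C * ‖Dw‖ * ‖Dw‖ := by gcongr
        _ = C * ‖Dw‖ ^ 2 := by ring
    calc √(c / C) * ‖w‖ = √(c / C * ‖w‖ ^ 2) := by
          rw [Real.sqrt_mul (div_pos hc hC0).le, Real.sqrt_sq (norm_nonneg _)]
      _ ≤ √(‖Dw‖ ^ 2) := Real.sqrt_le_sqrt (by rw [div_mul_eq_mul_div, div_le_iff₀ hC0]; linarith)
      _ = ‖Dw‖ := Real.sqrt_sq (norm_nonneg _)
  · intro u z y hu hz hy' hyB
    have hyt : y ∈ χ.target := (hball hyB).1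
    have h1 : Tendsto (fun n => χ.symm (χ (E.e (u n)))) atTop (𝓝 (χ.symm y)) :=
      ((continuousOn_extChartAt_symm q).continuousAt
        ((isOpen_extChartAt_target q).mem_nhds hyt)).tendsto.comp hy'
    have h2 : Tendsto (fun n => χ.symm (χ (E.e (u n)))) atTop (𝓝 (E.e z)) :=
      ((E.smooth.continuous.tendsto z).comp hz).congr fun n => (χ.left_inv (hu n).1).symm
    have hez : E.e z = χ.symm y := tendsto_nhds_unique h2 h1
    have hfz : χ (E.e z) = y := by rw [hez, χ.right_inv hyt]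
    exact ⟨⟨hez ▸ χ.map_target hyt, by rw [mem_preimage, hfz]; exact hyB⟩, hfz⟩

theorem ExpMap.isEvenlyCovered [T2Space M] {h : Metric 3 M} {p : M} (E : ExpMap h p) (q : M) :
    IsEvenlyCovered E.e q (E.e ⁻¹' {q}) ∧ (q ∈ closure (range E.e) → q ∈ range E.e) := by
  obtain ⟨U, B, k, hqU, hU, hUs, hUB, hqB, H⟩ := E.exists_expandsOver q
  set χ := extChartAt (𝓡 3) q with hχ
  set W := E.e ⁻¹' U with hW
  set F := E.e ⁻¹' {q} with hF
  have hFW : ∀ v ∈ F, v ∈ W := fun v hv => by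
    rw [hW, mem_preimage, show E.e v = q from hv]; exact hqU
  have hback : ∀ (z : W) (u : M), u ∈ U → χ (E.e z) = χ u → E.e z = u := fun z u hu h =>
    χ.injOn (hUs z.2) (hUs hu) h
  obtain ⟨Γ₁, hΓ₁, hΓ₁0, hΓ₁1, hΓ₁f⟩ := H.exists_endpoint (A := W) id continuous_id
    (fun _ => χ q) continuous_const (fun _ => hqB)
  let cen : W → F := fun z => ⟨Γ₁ (1, z), hback _ q hqU (hΓ₁1 z)⟩
  have hcen : Continuous cen := by
    refine Continuous.subtype_mk ?_ _
    fun_prop
  refine ⟨?_, fun hq => ?_⟩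
  · have hdisc : IsDiscrete F :=
      IsDiscrete.of_openPartialHomeomorph (fun v => χ (E.e v)) (x := χ q)
        (fun v hv => by simp [show E.e v = q from hv]) fun v hv => by
          obtain ⟨φ, hφ, -, hc, -⟩ := H.exists_chart (hFW v hv)
          exact ⟨φ, hφ, hc⟩
    have : DiscreteTopology F := hdisc.1
    obtain ⟨Γ₂, hΓ₂, hΓ₂0, hΓ₂1, hΓ₂f⟩ := H.exists_endpoint (A := U × F)
      (fun a => ⟨a.2.1, hFW _ a.2.2⟩) (by fun_prop) (fun a => χ a.1.1)
      ((continuousOn_extChartAt q).comp_continuous (by fun_prop) fun a => hUs a.1.2)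
      (fun a => hUB _ a.1.2)
    have hFq : ∀ v : F, χ (E.e v.1) = χ q := fun v => by rw [show E.e v.1 = q from v.2]
    refine ⟨inferInstance, U, hqU, hU, hU.preimage E.smooth.continuous,
      { toFun := fun z => (⟨E.e z, z.2⟩, cen z)
        invFun := fun a => Γ₂ (1, a)
        left_inv := fun z => ?_
        right_inv := fun a => ?_
        continuous_toFun := ?_
        continuous_invFun := by fun_prop }, fun z => rfl⟩
    · have := H.eq_of_lifts (A := unitInterval) (g₁ := fun t => Γ₂ (t, (⟨E.e z, z.2⟩, cen z)))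
        (g₂ := fun t => Γ₁ (unitInterval.symm t, z)) (by fun_prop) (by fun_prop) (fun t => ?_) 0 ?_
      · have := congr_fun this 1
        simpa [hΓ₁0] using this
      · rw [hΓ₂f, hFq (cen z), hΓ₁f (unitInterval.symm t) z]
        simp only [id_eq, unitInterval.coe_symm_eq]
        module
      · simp only [unitInterval.symm_zero, hΓ₂0]
        rfl
    · have he : E.e (Γ₂ (1, a)) = a.1 := hback _ _ a.1.2 (hΓ₂1 a)
      refine Prod.ext (Subtype.ext he) (Subtype.ext ?_)
      have := H.start_unique (g₁ := fun t => Γ₁ (unitInterval.symm t, Γ₂ (1, a)))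
        (g₂ := fun t => Γ₂ (t, a)) (by fun_prop) (by fun_prop) (fun t => ?_)
        (by simp [hΓ₁0])
      · have h' := congrArg Subtype.val this
        simpa [cen, hΓ₂0] using h'
      · rw [hΓ₁f, hΓ₂f]
        simp only [hFq, id_eq, unitInterval.coe_symm_eq, hΓ₂1]
        module
    · exact ((E.smooth.continuous.comp continuous_subtype_val).subtype_mk _).prodMk hcen
  · obtain ⟨_, huU, v, rfl⟩ := mem_closure_iff.1 hq U hU hqU
    exact ⟨(cen ⟨v, huU⟩).1, (cen ⟨v, huU⟩).2⟩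

theorem ExpMap.isCoveringMap [T2Space M] [CompactSpace M] [ConnectedSpace M] {h : Metric 3 M}
    {p : M} (E : ExpMap h p) : IsCoveringMap E.e ∧ Function.Surjective E.e := by
  have hc : IsCoveringMap E.e := fun q => (E.isEvenlyCovered q).1
  refine ⟨hc, range_eq_univ.1 ?_⟩
  have hclosed : IsClosed (range E.e) :=
    closure_subset_iff_isClosed.1 fun q hq => (E.isEvenlyCovered q).2 hq
  exact IsClopen.eq_univ ⟨hclosed, hc.isOpenMap.isOpen_range⟩ (range_nonempty _)

end Vale.Agent.P255
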