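import Vale.Agent.P255.NPC.GeoBasic

/-!
# P255 module D2a, third part: variation fields in one chart, and the growth of their length

The derivative of a family of solutions of the geodesic system is a Jacobi field. If `N = |J|²`
has `N(0) = N'(0) = 0` and `f = N'/2` satisfies `f² ≤ N f'` then `f'(0) ≤ N(1)`.
-/

open scoped Manifold ContDiff
open Bundle Set Filter Topology

namespace Vale.Agent.P255

set_option maxSynthPendingDepth 3

/-- the first order geodesic system of a field of forms -/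
noncomputable def formSpray (G : E3 → Form 3) (q : E3 × E3) : E3 × E3 :=
  (q.2, -christoffel G q.1 q.2 q.2)

theorem contDiffAt_chrBil {G : E3 → Form 3} {y : E3} (h : MetricNear G y) :
    ContDiffAt ℝ ∞ (chrBil G) y := by
  have hd : ContDiffAt ℝ ∞ (fderiv ℝ G) y := h.smooth.self_of_nhds.fderiv_right le_rfl
  have hflip := (ContinuousLinearMap.flipₗᵢ ℝ E3 E3 (E3 →L[ℝ] ℝ)).toContinuousLinearEquiv
    |>.toContinuousLinearMap.contDiff.contDiffAt.comp y hd
  have hc : ContDiffAt ℝ ∞ (fun w => chrCov (fderiv ℝ G w)) y :=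
    ((hd.add hflip).sub (contDiffAt_const.clm_comp hflip)).const_smul (1 / 2 : ℝ)
  have hi : ContDiffAt ℝ ∞ (fun w => (G w).inverse) y :=
    ((metric_invertible h).contDiffAt_map_inverse).comp y h.smooth.self_of_nhds
  exact ((ContinuousLinearMap.compL ℝ E3 (E3 →L[ℝ] ℝ) E3).contDiff.contDiffAt.comp y hi).clm_comp hc

theorem formSpray_smooth {G : E3 → Form 3} {q : E3 × E3} (h : MetricNear G q.1) :
    ContDiffAt ℝ ∞ (formSpray G) q :=
  contDiffAt_snd.prodMk
    (contDiffAt_christoffel_apply h contDiffAt_fst contDiffAt_snd contDiffAt_snd).neg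

theorem formSpray_fderiv {G : E3 → Form 3} {q : E3 × E3} (h : MetricNear G q.1) (b : E3 × E3) :
    fderiv ℝ (formSpray G) q b = (b.2, -(fderiv ℝ (chrBil G) q.1 b.1 q.2 q.2
      + chrBil G q.1 b.2 q.2 + chrBil G q.1 q.2 b.2)) := by
  have e : formSpray G = fun p => (p.2, -chrBil G p.1 p.2 p.2) := by
    funext p; rw [chrBil_apply]; rfl
  have hB := ((contDiffAt_chrBil h).differentiableAt (by simp)).hasFDerivAt
  have hb : HasFDerivAt (fun p : E3 × E3 => chrBil G p.1) _ q :=
    hB.comp (f := Prod.fst) q hasFDerivAt_fst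
  have hd := hasFDerivAt_snd.prodMk
    ((hb.clm_apply (hasFDerivAt_snd (p := q))).clm_apply (hasFDerivAt_snd (p := q))).neg
  rw [e, HasFDerivAt.fderiv (f := fun p : E3 × E3 => (p.2, -chrBil G p.1 p.2 p.2)) hd]
  simp
  abel

/-- a solution of a smooth equation is smooth -/
theorem smooth_of_ode {W : Type} [NormedAddCommGroup W] [NormedSpace ℝ W] {U : Set ℝ}
    (hU : IsOpen U) {Φ : W → ℝ → W} {α : ℝ → W} (hd : ∀ s ∈ U, HasDerivAt α (Φ (α s) s) s)
    (hc : ∀ n : ℕ, ContDiffOn ℝ n α U → ContDiffOn ℝ n (fun s => Φ (α s) s) U) :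
    ContDiffOn ℝ ∞ α U := by
  refine contDiffOn_infty.2 fun n => ?_
  induction n with
  | zero => exact contDiffOn_zero.2 fun s hs => (hd s hs).continuousAt.continuousWithinAt
  | succ n ih =>
    rw [Nat.cast_succ]
    refine (contDiffOn_succ_iff_deriv_of_isOpen hU).2
      ⟨fun s hs => (hd s hs).differentiableAt.differentiableWithinAt, by simp, ?_⟩
    exact (hc n ih).congr fun s hs => (hd s hs).deriv

/-- a solution and a solution of the linearised system give a geodesic and a Jacobi field -/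
theorem variation_jacobi {G : E3 → Form 3} {α β : ℝ → E3 × E3} {t : ℝ}
    (hG : MetricNear G (α t).1)
    (hev : ∀ᶠ s in 𝓝 t, HasDerivAt α (formSpray G (α s)) s ∧
      HasDerivAt β (fderiv ℝ (formSpray G) (α s) (β s)) s) :
    CurveNear G (fun s => (α s).1) (fun s => (β s).1) t ∧
      GeoAt G (fun s => (α s).1) t ∧ JacAt G (fun s => (α s).1) (fun s => (β s).1) t ∧
      deriv (fun s => (α s).1) t = (α t).2 ∧ deriv (fun s => (β s).1) t = (β t).2 := by
  obtain ⟨U, hUs, hU, htU⟩ := eventually_nhds_iff.1 hev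
  have hcont : ContinuousAt (fun s => (α s).1) t := (hUs t htU).1.continuousAt.fst
  obtain ⟨V, hVs, hV, htV⟩ := eventually_nhds_iff.1 (hcont.eventually hG.eventually_near)
  have hα : ContDiffOn ℝ ∞ α (U ∩ V) :=
    smooth_of_ode (hU.inter hV) (Φ := fun a _ => formSpray G a)
      (fun s hs => (hUs s hs.1).1) fun n hn s hs =>
      ((formSpray_smooth (hVs s hs.2)).of_le (by exact_mod_cast le_top)).comp_contDiffWithinAt s
        (hn s hs)
  have hβ : ContDiffOn ℝ ∞ β (U ∩ V) :=
    smooth_of_ode (hU.inter hV) (Φ := fun b s => fderiv ℝ (formSpray G) (α s) b)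
      (fun s hs => (hUs s hs.1).2) fun n hn s hs => by
      have h1 : ContDiffAt ℝ ∞ (fderiv ℝ (formSpray G)) (α s) :=
        (formSpray_smooth (hVs s hs.2)).fderiv_right le_rfl
      exact (((h1.comp_contDiffWithinAt s (hα s hs)).of_le (by exact_mod_cast le_top))).clm_apply
        (hn s hs)
  have htm : U ∩ V ∈ 𝓝 t := (hU.inter hV).mem_nhds ⟨htU, htV⟩
  have hcurve : CurveNear G (fun s => (α s).1) (fun s => (β s).1) t :=
    ⟨hG, (hα.contDiffAt htm).fst, (hβ.contDiffAt htm).fst⟩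
  have dz : ∀ s ∈ U, deriv (fun r => (α r).1) s = (α s).2 := fun s hs =>
    (hasDerivAt_fst_snd (hUs s hs).1).1.deriv
  have dX : ∀ s ∈ U ∩ V, deriv (fun r => (β r).1) s = (β s).2 := fun s hs => by
    rw [(hasDerivAt_fst_snd (hUs s hs.1).2).1.deriv, formSpray_fderiv (hVs s hs.2)]
  have dzev : deriv (fun r => (α r).1) =ᶠ[𝓝 t] fun r => (α r).2 :=
    eventually_of_mem (hU.mem_nhds htU) dz
  have hzz : deriv (deriv fun r => (α r).1) t
      = -christoffel G (α t).1 (α t).2 (α t).2 := by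
    rw [dzev.deriv_eq, (hasDerivAt_fst_snd (hUs t htU).1).2.deriv, formSpray]
  refine ⟨hcurve, ?_, ?_, dz t htU, dX t ⟨htU, htV⟩⟩
  · rw [GeoAt, covDeriv, hzz, dz t htU]
    abel
  · have hcov : covDeriv G (fun s => (α s).1) (fun s => (β s).1) =ᶠ[𝓝 t]
        fun s => (β s).2 + chrBil G (α s).1 (β s).1 (α s).2 := by
      filter_upwards [htm] with s hs
      rw [covDeriv, dX s hs, dz s hs.1, christoffel_symm (hVs s hs.2), ← chrBil_apply]
    have hB : DifferentiableAt ℝ (chrBil G) (α t).1 :=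
      (contDiffAt_chrBil hG).differentiableAt (by simp)
    have hBz : HasDerivAt (fun s => chrBil G (α s).1) _ t :=
      hB.hasFDerivAt.comp_hasDerivAt (f := fun r => (α r).1) t (hasDerivAt_fst_snd (hUs t htU).1).1
    have hd := (hasDerivAt_fst_snd (hUs t htU).2).2.fun_add
      ((hBz.clm_apply (hasDerivAt_fst_snd (hUs t htU).2).1).clm_apply
        (hasDerivAt_fst_snd (hUs t htU).1).2)
    have e : covDeriv G (fun s => (α s).1) (covDeriv G (fun s => (α s).1) fun s => (β s).1) t
        = deriv (covDeriv G (fun s => (α s).1) fun s => (β s).1) t + chrBil G (α t).1 (α t).2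
          (covDeriv G (fun s => (α s).1) (fun s => (β s).1) t) := by
      rw [covDeriv, dz t htU, chrBil_apply]
    rw [JacAt, e, hcov.deriv_eq, hd.deriv, hcov.self_of_nhds, curv_eq_chrBil hB, dz t htU,
      formSpray_fderiv hG, formSpray, ← chrBil_apply]
    simp only [map_add, map_neg, add_apply]
    abel

theorem form_cauchy {G : E3 → Form 3} {y : E3} (h : MetricNear G y) (a b : E3) :
    G y a b ^ 2 ≤ G y a a * G y b b := by
  rcases eq_or_ne b 0 with rfl | hb
  · simp
  have hbb := h.pos.self_of_nhds b hb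
  set τ := -(G y a b / G y b b) with hτ
  have hq : 0 ≤ G y (a + τ • b) (a + τ • b) := by
    rcases eq_or_ne (a + τ • b) 0 with h0 | h0
    · simp [h0]
    · exact (h.pos.self_of_nhds _ h0).le
  simp only [map_add, map_smul, add_apply, smul_apply, smul_eq_mul,
    h.symm.self_of_nhds b a] at hq
  have e : G y a a + τ * G y a b + τ * (G y a b + τ * G y b b)
      = (G y a a * G y b b - G y a b ^ 2) / G y b b := by
    rw [hτ]; field_simp; ring
  rw [e] at hq
  have h1 := mul_nonneg hq hbb.le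
  rw [div_mul_cancel₀ _ hbb.ne'] at h1
  linarith

theorem sqrt_growth {N f f' : ℝ → ℝ} (hN : ∀ t, HasDerivAt N (2 * f t) t)
    (hf : ∀ t, HasDerivAt f (f' t) t) (hN0 : N 0 = 0) (hf0 : f 0 = 0) (hpos : ∀ t, 0 ≤ f' t)
    (hnn : ∀ t, 0 ≤ N t) (hcs : ∀ t, f t ^ 2 ≤ N t * f' t) : f' 0 ≤ N 1 := by
  -- `√N` is convex and vanishes at `0`
  have conv : ∀ ε : ℝ, 0 < ε → ConvexOn ℝ univ fun t => Real.sqrt (N t + ε) := by
    intro ε hε
    have hp : ∀ t, 0 < N t + ε := fun t => add_pos_of_nonneg_of_pos (hnn t) hε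
    have h1 : ∀ t, HasDerivAt (fun t => Real.sqrt (N t + ε)) (f t / Real.sqrt (N t + ε)) t :=
      fun t => (((hN t).add_const ε).sqrt (hp t).ne').congr_deriv (by field_simp)
    have h2 : ∀ t, HasDerivAt (fun t => f t / Real.sqrt (N t + ε))
        ((f' t * (N t + ε) - f t ^ 2) / ((N t + ε) * Real.sqrt (N t + ε))) t := fun t => by
      refine ((hf t).fun_div (h1 t) (Real.sqrt_pos.2 (hp t)).ne').congr_deriv ?_
      have hs := Real.sq_sqrt (hp t).le
      have hR := (Real.sqrt_pos.2 (hp t)).ne'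
      generalize Real.sqrt (N t + ε) = R at hs hR ⊢
      generalize N t + ε = P at hs ⊢
      subst hs
      field_simp
    refine convexOn_of_hasDerivWithinAt2_nonneg convex_univ
      (fun t _ => (h1 t).continuousAt.continuousWithinAt)
      (fun t _ => (h1 t).hasDerivWithinAt) (fun t _ => (h2 t).hasDerivWithinAt) fun t _ => ?_
    refine div_nonneg ?_ (mul_nonneg (hp t).le (Real.sqrt_nonneg _))
    nlinarith [hcs t, mul_nonneg (hpos t) hε.le]
  have hquad : ∀ t ∈ Ioo (0:ℝ) 1, N t ≤ t ^ 2 * N 1 := by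
    intro t ht
    have hlim : Tendsto (fun ε : ℝ => (1 - t) * Real.sqrt ε + t * Real.sqrt (N 1 + ε)) (𝓝[>] 0)
        (𝓝 (t * Real.sqrt (N 1))) := by
      refine Tendsto.mono_left ?_ nhdsWithin_le_nhds
      have hc : Continuous fun ε : ℝ => (1 - t) * Real.sqrt ε + t * Real.sqrt (N 1 + ε) := by
        fun_prop
      simpa using hc.tendsto 0
    have hb : Real.sqrt (N t) ≤ t * Real.sqrt (N 1) := by
      refine ge_of_tendsto hlim (eventually_of_mem self_mem_nhdsWithin fun ε hε => ?_)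
      have hk := (conv ε hε).2 (mem_univ (0:ℝ)) (mem_univ (1:ℝ)) (sub_nonneg.2 ht.2.le) ht.1.le
        (by ring)
      simp only [smul_eq_mul, mul_zero, mul_one, zero_add, hN0] at hk
      exact (Real.sqrt_le_sqrt (le_add_of_nonneg_right (mem_Ioi.1 hε).le)).trans hk
    have := pow_le_pow_left₀ (Real.sqrt_nonneg _) hb 2
    rwa [mul_pow, Real.sq_sqrt (hnn t), Real.sq_sqrt (hnn 1)] at this
  refine le_of_forall_lt fun c hc => ?_
  obtain ⟨c', hc', hc''⟩ := exists_between hc
  refine hc'.trans_le ?_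
  have hsl : ∀ᶠ s in 𝓝[>] (0:ℝ), c' < slope f 0 s :=
    ((hasDerivAt_iff_tendsto_slope.1 (hf 0)).eventually (lt_mem_nhds hc'')).filter_mono
      (nhdsWithin_mono _ fun s hs => ne_of_gt hs)
  obtain ⟨u, hu, hsub⟩ := mem_nhdsGT_iff_exists_Ioo_subset.1 hsl
  set τ := min u 1 / 2 with hτ
  have hτ0 : 0 < τ := by have := lt_min (mem_Ioi.1 hu) one_pos; rw [hτ]; linarith
  have hτu : τ < u ∧ τ < 1 := by
    have h1 := min_le_left u 1
    have h2 := min_le_right u 1
    have h3 := lt_min (mem_Ioi.1 hu) one_pos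
    constructor <;> rw [hτ] <;> linarith
  have hd : ∀ s, HasDerivAt (fun s => N s - c' * s ^ 2) (2 * f s - c' * (2 * s)) s := fun s =>
    ((hN s).fun_sub ((hasDerivAt_pow 2 s).const_mul c')).congr_deriv (by simp)
  have hmono : MonotoneOn (fun s => N s - c' * s ^ 2) (Icc 0 τ) := by
    refine monotoneOn_of_hasDerivWithinAt_nonneg (convex_Icc 0 τ)
      (fun s _ => (hd s).continuousAt.continuousWithinAt) (fun s _ => (hd s).hasDerivWithinAt) ?_
    intro s hs
    rw [interior_Icc] at hs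
    have h1 : c' < slope f 0 s := hsub ⟨hs.1, hs.2.trans hτu.1⟩
    rw [slope_def_field, hf0, sub_zero, sub_zero, lt_div_iff₀ hs.1] at h1
    linarith
  have h1 := hmono (left_mem_Icc.2 hτ0.le) (right_mem_Icc.2 hτ0.le) hτ0.le
  simp [hN0] at h1
  have h2 := hquad τ ⟨hτ0, hτu.2⟩
  exact le_of_mul_le_mul_left (by linarith : τ ^ 2 * c' ≤ τ ^ 2 * N 1) (pow_pos hτ0 2)

end Vale.Agent.P255
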