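import Vale.Agent.P255.NPC.Variation
import Vale.Agent.P255.NPC.JacobiConvex

/-!
# P255 module D2a: the exponential map of a nonpositively curved closed manifold

Only what Cartan–Hadamard needs is recorded: `e` is `C¹`, radial curves have constant speed and
the differential expands. The proof: global geodesics by compactness, `C¹` dependence on the
initial velocity, and `|J|'' ≥ 0` for the variation field, which satisfies the linearised geodesic
equation in every chart (so only the curvature sign in the chart centred at the point is used).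
-/

open scoped Manifold ContDiff
open Bundle Set Filter Topology

namespace Vale.Agent.P255

set_option maxSynthPendingDepth 3

variable {M : Type} [TopologicalSpace M] [ChartedSpace E3 M] [IsManifold (𝓡 3) ∞ M]

/-- the squared length of the image of `w` under the differential of `e` at `v` -/
noncomputable def pullSq (h : Metric 3 M) (e : E3 → M) (v w : E3) : ℝ :=
  h.inner (e v) (mfderiv (𝓡 3) (𝓡 3) e v w) (mfderiv (𝓡 3) (𝓡 3) e v w)

/-- an exponential map at `p` -/
structure ExpMap (h : Metric 3 M) (p : M) where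
  e : E3 → M
  zero : e 0 = p
  smooth : ContMDiff (𝓡 3) (𝓡 3) 1 e
  bijective₀ : Function.Bijective (mfderiv (𝓡 3) (𝓡 3) e 0)
  radial : ∀ (v : E3) (t : ℝ), pullSq h e (t • v) v = pullSq h e 0 v
  expand : ∀ v w : E3, pullSq h e 0 w ≤ pullSq h e v w

/-- `pullSq` read in a chart -/
theorem pullSq_chart (h : Metric 3 M) {F : E3 → M} {v : E3} (hF : MDifferentiableAt (𝓡 3) (𝓡 3) F v)
    {x : M} (hx : F v ∈ (extChartAt (𝓡 3) x).source) (w : E3) :
    pullSq h F v w = metricInChart h x (extChartAt (𝓡 3) x (F v))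
      (fderiv ℝ (extChartAt (𝓡 3) x ∘ F) v w) (fderiv ℝ (extChartAt (𝓡 3) x ∘ F) v w) := by
  rw [pullSq, inner_eq_metricInChart h x hx]
  have hc : MDifferentiableAt (𝓡 3) (𝓡 3) (extChartAt (𝓡 3) x) (F v) :=
    mdifferentiableAt_extChartAt (by simpa [extChartAt_source] using hx)
  rw [← mfderiv_eq_fderiv, mfderiv_comp v hc hF]
  rfl

section

variable [T2Space M] [CompactSpace M] {h : Metric 3 M} {p : M}

/-- the variation field squared, in a chart -/
theorem famSq_chart {v : E3} (w : E3) {t : ℝ} {x : M}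
    (hx : geoFam h p v t ∈ (extChartAt (𝓡 3) x).source) :
    pullSq h (fun u => geoFam h p u t) v w = metricInChart h x (famState h p x t v).1
      (fderiv ℝ (famState h p x t) v w).1 (fderiv ℝ (famState h p x t) v w).1 := by
  have hc := ((famRegular (h := h) (p := p) v t).chart hx).2
  rw [pullSq_chart h ((contMDiff_geoFam t).mdifferentiableAt one_ne_zero) hx w]
  have e : fderiv ℝ (extChartAt (𝓡 3) x ∘ fun u => geoFam h p u t) v
      = (ContinuousLinearMap.fst ℝ E3 E3).comp (fderiv ℝ (famState h p x t) v) :=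
    ((ContinuousLinearMap.fst ℝ E3 E3).hasFDerivAt.comp v
      (hc.differentiableAt (by simp)).hasFDerivAt).fderiv
  rw [e]
  rfl

theorem famState_deriv_zero (v w : E3) :
    fderiv ℝ (famState h p p 0) v w = (0, w) := by
  rw [show famState h p p 0 = fun v => (extChartAt (𝓡 3) p p, v) from
    funext fun v => geoFam_state h p v]
  have hd : HasFDerivAt (fun v : E3 => (extChartAt (𝓡 3) p p, v))
      ((0 : E3 →L[ℝ] E3).prod (ContinuousLinearMap.id ℝ E3)) v :=
    (hasFDerivAt_const _ v).prodMk (hasFDerivAt_id v)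
  rw [hd.fderiv]
  rfl

/-- in a chart, the derivative of the exponential map along a ray is the velocity -/
theorem expRay_deriv (v : E3) (t : ℝ) {x : M}
    (hx : geoFam h p v t ∈ (extChartAt (𝓡 3) x).source) :
    fderiv ℝ (extChartAt (𝓡 3) x ∘ fun u => geoFam h p u 1) (t • v) v
      = deriv (curveIn (geoFam h p v) x) t := by
  have hx1 : geoFam h p (t • v) 1 ∈ (extChartAt (𝓡 3) x).source := by
    rwa [geoFam_smul, mul_one]
  have hd : DifferentiableAt ℝ (extChartAt (𝓡 3) x ∘ fun u => geoFam h p u 1) (t • v) :=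
    ((contDiffAt_fst.comp _ ((famRegular (h := h) (p := p) (t • v) 1).chart hx1).2)).differentiableAt
      one_ne_zero
  have hl : HasDerivAt (fun r : ℝ => r • v) v t := by
    simpa using (hasDerivAt_id t).smul_const v
  rw [← (hd.hasFDerivAt.comp_hasDerivAt t hl).deriv]
  refine congrArg (fun F : ℝ → E3 => deriv F t) (funext fun r => ?_)
  show extChartAt (𝓡 3) x (geoFam h p (r • v) 1) = extChartAt (𝓡 3) x (geoFam h p v r)
  rw [geoFam_smul, mul_one]

theorem expMap_zero : geoFam h p 0 1 = p := by
  rw [← zero_smul ℝ (0 : E3), geoFam_smul, zero_mul, geoFam_zero]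

theorem pullSq_ray (v : E3) (t : ℝ) :
    pullSq h (fun u => geoFam h p u 1) (t • v) v = geoSpeed h (geoFam h p v) t := by
  have hx := mem_extChartAt_source (I := 𝓡 3) (geoFam h p v t)
  have hx1 : geoFam h p (t • v) 1 ∈ (extChartAt (𝓡 3) (geoFam h p v t)).source := by
    rwa [geoFam_smul, mul_one]
  rw [pullSq_chart h (x := geoFam h p v t) ((contMDiff_geoFam 1).mdifferentiableAt one_ne_zero) hx1,
    expRay_deriv v t hx]
  show metricInChart h _ (extChartAt (𝓡 3) _ (geoFam h p (t • v) 1)) _ _ = _
  rw [geoFam_smul, mul_one]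
  rfl

theorem pullSq_origin (w : E3) :
    pullSq h (fun u => geoFam h p u 1) 0 w
      = metricInChart h p (extChartAt (𝓡 3) p p) w w := by
  have e := pullSq_ray (h := h) (p := p) w 0
  rw [zero_smul] at e
  rw [e, geoSpeed, geoFam_zero]
  have e2 := geoFam_state h p w
  rw [geoState, Prod.mk.injEq] at e2
  rw [e2.1, e2.2]

/-- the variation field grows at least linearly -/
theorem famSq_lower (hh : NonposCurvature h) (v w : E3) :
    metricInChart h p (extChartAt (𝓡 3) p p) w w ≤ pullSq h (fun u => geoFam h p u 1) v w := by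
  set N : ℝ → ℝ := fun t => pullSq h (fun u => geoFam h p u t) v w
  let G : ℝ → E3 → Form 3 := fun t => metricInChart h (geoFam h p v t)
  let z : ℝ → ℝ → E3 := fun t s => (famState h p (geoFam h p v t) s v).1
  let J : ℝ → ℝ → E3 := fun t s => (fderiv ℝ (famState h p (geoFam h p v t) s) v w).1
  have hvar : ∀ t, ∀ᶠ s in 𝓝 t, CurveNear (G t) (z t) (J t) s ∧ GeoAt (G t) (z t) s ∧
      JacAt (G t) (z t) (J t) s ∧
      deriv (z t) s = (famState h p (geoFam h p v t) s v).2 ∧
      deriv (J t) s = (fderiv ℝ (famState h p (geoFam h p v t) s) v w).2 ∧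
      N s = G t (z t s) (J t s) (J t s) := by
    intro t
    have hx := mem_extChartAt_source (I := 𝓡 3) (geoFam h p v t)
    filter_upwards [eventually_eventually_nhds.2 (famState_variation v w hx)] with s hs
    obtain ⟨hsrc, -⟩ := hs.self_of_nhds
    obtain ⟨h1, h2, h3, h4, h5⟩ := variation_jacobi (G := G t)
      (α := fun r => famState h p (geoFam h p v t) r v)
      (β := fun r => fderiv ℝ (famState h p (geoFam h p v t) r) v w)
      (metricInChart_near h _ ((extChartAt (𝓡 3) _).map_source hsrc))
      (hs.mono fun r hr => hr.2)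
    exact ⟨h1, h2, h3, h4, h5, famSq_chart w hsrc⟩
  set f : ℝ → ℝ := fun s => deriv N s / 2
  have hfe : ∀ t, f =ᶠ[𝓝 t] fStd (G t) (z t) (J t) := by
    intro t
    filter_upwards [eventually_eventually_nhds.2 (hvar t)] with s hs
    have hd := (hasDerivAt_sq hs.self_of_nhds.1).congr_of_eventuallyEq
      (hs.mono fun r hr => hr.2.2.2.2.2 : N =ᶠ[𝓝 s] _)
    simp only [f, hd.deriv]
    ring
  have hN : ∀ t, HasDerivAt N (2 * f t) t := fun t => by
    rw [(hfe t).self_of_nhds]
    exact (hasDerivAt_sq (hvar t).self_of_nhds.1).congr_of_eventuallyEq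
      ((hvar t).mono fun r hr => hr.2.2.2.2.2)
  have hnn : ∀ t y a, MetricNear (G t) y → 0 ≤ G t y a a := by
    intro t y a hm
    rcases eq_or_ne a 0 with rfl | ha
    · simp
    · exact (hm.pos.self_of_nhds a ha).le
  have hf : ∀ t, HasDerivAt f (G t (z t t) (covDeriv (G t) (z t) (J t) t)
      (covDeriv (G t) (z t) (J t) t) - secForm (G t) (z t t) (J t t) (deriv (z t) t)) t := fun t =>
    (hasDerivAt_fStd (hvar t).self_of_nhds.1 (hvar t).self_of_nhds.2.2.1).congr_of_eventuallyEq
      (hfe t)
  have hsec : ∀ t, secForm (G t) (z t t) (J t t) (deriv (z t) t) ≤ 0 := fun t =>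
    hh (geoFam h p v t) (J t t) (deriv (z t) t)
  have hst : famState h p p 0 v = (extChartAt (𝓡 3) p p, v) := geoFam_state h p v
  have hz0 : J 0 0 = 0 ∧ deriv (J 0) 0 = w ∧ z 0 0 = extChartAt (𝓡 3) p p ∧
      G 0 = metricInChart h p := by
    obtain ⟨-, -, -, -, hJd, -⟩ := (hvar 0).self_of_nhds
    rw [hJd]
    simp only [J, z, G, geoFam_zero, famState_deriv_zero, hst, and_self]
  obtain ⟨hJ0, hJd0, hz00, hG0⟩ := hz0
  have hcov : covDeriv (G 0) (z 0) (J 0) 0 = w := by
    rw [covDeriv, hJd0, hJ0, add_eq_left]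
    have hm := (hvar 0).self_of_nhds.1.metric
    rw [christoffel_symm hm]
    simp [christoffel]
  have hN0 : N 0 = 0 := by
    rw [(hvar 0).self_of_nhds.2.2.2.2.2, hJ0, map_zero]
  have hf0 : f 0 = 0 := by
    rw [(hfe 0).self_of_nhds, fStd, hJ0, map_zero]
    rfl
  have key := sqrt_growth hN hf hN0 hf0
    (fun t => sub_nonneg.2 ((hsec t).trans (hnn t _ _ (hvar t).self_of_nhds.1.metric)))
    (fun t => by
      rw [(hvar t).self_of_nhds.2.2.2.2.2]
      exact hnn t _ _ (hvar t).self_of_nhds.1.metric)
    (fun t => by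
      have hm := (hvar t).self_of_nhds.1.metric
      rw [(hfe t).self_of_nhds, (hvar t).self_of_nhds.2.2.2.2.2, fStd]
      refine (form_cauchy hm _ _).trans (mul_le_mul_of_nonneg_left ?_ (hnn t _ _ hm))
      linarith [hsec t])
  rw [hcov, hz00, hJ0, hG0] at key
  have e : secForm (metricInChart h p) (extChartAt (𝓡 3) p p) 0 (deriv (z 0) 0) = 0 := by
    rw [secForm, map_zero]
  rwa [e, sub_zero] at key

end

theorem expMap_nonempty [T2Space M] [CompactSpace M] (h : Metric 3 M) (hh : NonposCurvature h)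
    (p : M) : Nonempty (ExpMap h p) := by
  have hm : MetricNear (metricInChart h p) (extChartAt (𝓡 3) p p) :=
    metricInChart_near h p (mem_extChartAt_target p)
  have hinj : ∀ w : E3, mfderiv (𝓡 3) (𝓡 3) (fun u => geoFam h p u 1) (0 : E3) w = 0 → w = 0 := by
    intro w hw
    by_contra hne
    have h1 : (0 : ℝ) < pullSq h (fun u => geoFam h p u 1) 0 w := by
      rw [pullSq_origin]
      exact hm.pos.self_of_nhds w hne
    have h2 : pullSq h (fun u => geoFam h p u 1) 0 w = 0 := by
      unfold pullSq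
      rw [hw, map_zero]
    linarith
  have hi : Function.Injective (mfderiv (𝓡 3) (𝓡 3) (fun u => geoFam h p u 1) (0 : E3)) :=
    (injective_iff_map_eq_zero _).2 hinj
  have hs : ∀ L : E3 →L[ℝ] E3, Function.Injective L → Function.Bijective L := fun L hL =>
    ⟨hL, LinearMap.surjective_of_injective (f := L.toLinearMap) hL⟩
  refine ⟨⟨fun u => geoFam h p u 1, expMap_zero, contMDiff_geoFam 1, hs _ hi,
    fun v t => ?_, fun v w => ?_⟩⟩
  · have e := pullSq_ray (h := h) (p := p) v 0
    rw [zero_smul] at e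
    rw [pullSq_ray, e]
    exact (geoFam_geo h p v).speed_const isOpen_univ isPreconnected_univ (mem_univ 0) (mem_univ t)
  · rw [pullSq_origin]
    exact famSq_lower hh v w

end Vale.Agent.P255
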