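import Mathlib

/-!
# P255 module D2c: the flow of a `C¹` vector field is `C¹` in the initial point

After cutting the field off outside a compact neighbourhood of the given trajectory it is
bounded and Lipschitz, so trajectories exist on the whole interval and depend Lipschitz
continuously on the initial point. The solution of the variational equation is then the
derivative, and it depends continuously on the initial point, both by Grönwall.
-/

open Set Filter Topology Metric
open scoped NNReal ContDiff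

namespace Vale.Agent.P255

/-- Grönwall on both sides of `0`. -/
lemma norm_le_gronwall_two_sided {E : Type} [NormedAddCommGroup E] [NormedSpace ℝ E]
    {z : ℝ → E} {z' : ℝ → E} {a b δ K ε : ℝ} (h0 : (0:ℝ) ∈ Icc a b) (hK : 0 ≤ K) (hε : 0 ≤ ε)
    (hz : ∀ t ∈ Icc a b, HasDerivWithinAt z (z' t) (Icc a b) t) (hi : ‖z 0‖ ≤ δ)
    (hb : ∀ t ∈ Icc a b, ‖z' t‖ ≤ K * ‖z t‖ + ε) :
    ∀ t ∈ Icc a b, ‖z t‖ ≤ gronwallBound δ K ε (b - a) := by
  have hδ : 0 ≤ δ := (norm_nonneg _).trans hi
  have hc : ContinuousOn z (Icc a b) := fun t ht => (hz t ht).continuousWithinAt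
  intro t ht
  rcases le_total 0 t with h | h
  · refine (norm_le_gronwallBound_of_norm_deriv_right_le (b := b)
      (hc.mono (Icc_subset_Icc_left h0.1)) (f' := z') (fun s hs => ?_) hi
      (fun s hs => hb s ⟨h0.1.trans hs.1, hs.2.le⟩) t ⟨h, ht.2⟩).trans ?_
    · exact (hz s ⟨h0.1.trans hs.1, hs.2.le⟩).mono_of_mem_nhdsWithin
        (Icc_mem_nhdsGE_of_mem ⟨h0.1.trans hs.1, hs.2⟩)
    · exact gronwallBound_mono hδ hε hK (by linarith [h0.1, ht.2])
  · let y : ℝ → E := fun s => z (-s)
    have hy : ∀ s ∈ Icc (-b) (-a), HasDerivWithinAt y (-z' (-s)) (Icc (-b) (-a)) s := by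
      intro s hs
      have hm : MapsTo (fun s : ℝ => -s) (Icc (-b) (-a)) (Icc a b) := fun u hu =>
        ⟨by linarith [hu.2], by linarith [hu.1]⟩
      have := (hz (-s) (hm hs)).scomp s
        ((hasDerivAt_neg s).hasDerivWithinAt) hm
      simpa [y, Function.comp_def] using this
    have := norm_le_gronwallBound_of_norm_deriv_right_le (a := 0) (b := -a) (f := y)
      (f' := fun s => -z' (-s))
      (fun s hs => (hy s ⟨by linarith [h0.2, hs.1], hs.2⟩).continuousWithinAt.mono
        (Icc_subset_Icc_left (by linarith [h0.2])))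
      (fun s hs => (hy s ⟨by linarith [h0.2, hs.1], hs.2.le⟩).mono_of_mem_nhdsWithin
        (Icc_mem_nhdsGE_of_mem ⟨by linarith [h0.2, hs.1], hs.2⟩))
      (by simpa [y] using hi)
      (fun s hs => by
        rw [norm_neg]
        exact hb (-s) ⟨by linarith [hs.2], by linarith [h0.2, hs.1]⟩)
      (-t) ⟨by linarith, by linarith [ht.1]⟩
    simp only [y, neg_neg] at this
    exact this.trans (gronwallBound_mono hδ hε hK (by linarith [h0.2, ht.1]))

/-- A bounded Lipschitz field has trajectories on the whole interval. -/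
lemma exists_trajectory {E : Type} [NormedAddCommGroup E] [NormedSpace ℝ E] [CompleteSpace E]
    {h : ℝ → E → E} {a b : ℝ} (h0 : (0:ℝ) ∈ Icc a b) {K B : ℝ≥0}
    (hl : ∀ t ∈ Icc a b, LipschitzWith K (h t)) (hc : ∀ x, ContinuousOn (h · x) (Icc a b))
    (hB : ∀ t ∈ Icc a b, ∀ x, ‖h t x‖ ≤ B) (x : E) :
    ∃ α : ℝ → E, α 0 = x ∧ ∀ t ∈ Icc a b, HasDerivWithinAt α (h t (α t)) (Icc a b) t := by
  let R : ℝ≥0 := B * ⟨max (b - 0) (0 - a), le_max_of_le_left (by linarith [h0.2])⟩
  have hp : IsPicardLindelof h (tmin := a) (tmax := b) ⟨0, h0⟩ x R 0 B K :=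
    { lipschitzOnWith := fun t ht => (hl t ht).lipschitzOnWith
      continuousOn := fun y _ => hc y
      norm_le := fun t ht y _ => hB t ht y
      mul_max_le := le_of_eq (by simp only [R, NNReal.coe_zero, sub_zero]; rfl) }
  exact hp.exists_eq_forall_mem_Icc_hasDerivWithinAt₀

/-- The flow of a `C¹` vector field is `C¹` in the initial point, and its derivative solves
the variational equation. -/
theorem exists_flow_variational {F : Type} [NormedAddCommGroup F] [NormedSpace ℝ F]
    [FiniteDimensional ℝ F] {f : F → F} {U : Set F} (hU : IsOpen U) (hf : ContDiffOn ℝ 1 f U)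
    {γ : ℝ → F} {a b : ℝ} (h0 : (0:ℝ) ∈ Icc a b) (hγU : ∀ t ∈ Icc a b, γ t ∈ U)
    (hγ : ∀ t ∈ Icc a b, HasDerivWithinAt γ (f (γ t)) (Icc a b) t) :
    ∃ (V : Set F) (Φ : F → ℝ → F), IsOpen V ∧ γ 0 ∈ V ∧
      (∀ x ∈ V, Φ x 0 = x ∧ ∀ t ∈ Icc a b, Φ x t ∈ U ∧
        HasDerivWithinAt (Φ x) (f (Φ x t)) (Icc a b) t) ∧
      (∀ t ∈ Icc a b, ContDiffOn ℝ 1 (fun x => Φ x t) V) ∧
      ∀ x ∈ V, ∃ L : ℝ → F →L[ℝ] F, L 0 = ContinuousLinearMap.id ℝ F ∧ ∀ t ∈ Icc a b,
        HasFDerivAt (fun y => Φ y t) (L t) x ∧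
        HasDerivWithinAt L ((fderiv ℝ f (Φ x t)).comp (L t)) (Icc a b) t := by
  have : CompleteSpace F := FiniteDimensional.complete ℝ F
  have : ProperSpace F := FiniteDimensional.proper_real F
  -- cut the field off near the trajectory
  have hcγ : ContinuousOn γ (Icc a b) := fun t ht => (hγ t ht).continuousWithinAt
  have hS : IsCompact (γ '' Icc a b) := isCompact_Icc.image_of_continuousOn hcγ
  obtain ⟨δ, hδ, hδU⟩ := hS.exists_cthickening_subset_open hU (image_subset_iff.2 hγU)
  obtain ⟨χ, hχ1, hχ0, hχsmooth⟩ : ∃ χ : F → ℝ,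
      (∀ y ∈ cthickening (δ / 2) (γ '' Icc a b), ∀ᶠ z in 𝓝 y, χ z = 1) ∧ (∀ y, y ∉ cthickening δ (γ '' Icc a b) → χ y = 0) ∧ ContDiff ℝ 1 χ := by
    obtain ⟨χ, h1, h2, -⟩ := exists_contMDiffMap_one_nhds_of_subset_interior
      (I := modelWithCornersSelf ℝ F) (n := (1 : ℕ∞))
      (s := cthickening (δ / 2) (γ '' Icc a b)) (t := cthickening δ (γ '' Icc a b))
      isClosed_cthickening
      ((cthickening_subset_thickening' hδ (by linarith) _).trans
        (interior_maximal (thickening_subset_cthickening _ _) isOpen_thickening))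
    exact ⟨χ, fun y hy => h1.filter_mono (nhds_le_nhdsSet hy), h2, χ.contMDiff.contDiff⟩
  have hχsupp : tsupport χ ⊆ cthickening δ (γ '' Icc a b) :=
    closure_minimal (fun y hy => by by_contra h; exact hy (hχ0 y h)) isClosed_cthickening
  let g : F → F := fun y => χ y • f y
  have hg : ContDiff ℝ 1 g := contDiff_iff_contDiffAt.2 fun y => by
    by_cases hy : y ∈ U
    · exact hχsmooth.contDiffAt.smul (hf.contDiffAt (hU.mem_nhds hy))
    · have : ∀ᶠ z in 𝓝 y, g z = 0 := by
        filter_upwards [(isClosed_tsupport χ).isOpen_compl.mem_nhds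
          fun h => hy (hδU (hχsupp h))] with z hz
        simp [g, image_eq_zero_of_notMem_tsupport hz]
      exact (contDiffAt_const (c := (0:F))).congr_of_eventuallyEq this
  have hgs : HasCompactSupport g :=
    (HasCompactSupport.of_support_subset_isCompact hS.cthickening
      ((subset_tsupport χ).trans hχsupp)).smul_right
  obtain ⟨K, hK⟩ := hg.lipschitzWith_of_hasCompactSupport hgs one_ne_zero
  obtain ⟨B, hB⟩ := hgs.exists_bound_of_continuous hg.continuous
  have hB0 : 0 ≤ B := (norm_nonneg _).trans (hB (γ 0))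
  have hgf : ∀ y ∈ cthickening (δ / 2) (γ '' Icc a b), g y = f y := fun y hy => by
    simp [g, (hχ1 y hy).self_of_nhds]
  choose Φ hΦ0 hΦ using fun x : F => exists_trajectory (h := fun _ => g) h0 (K := K)
    (B := ⟨B, hB0⟩) (fun _ _ => hK) (fun _ => continuousOn_const) (fun _ _ y => hB y) x
  have hΦc : ∀ x, ContinuousOn (Φ x) (Icc a b) := fun x t ht =>
    (hΦ x t ht).continuousWithinAt
  -- Lipschitz dependence
  set G : ℝ := Real.exp (K * (b - a)) with hG
  have hG0 : 0 < G := Real.exp_pos _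
  have lip : ∀ (u v : ℝ → F), (∀ t ∈ Icc a b, HasDerivWithinAt u (g (u t)) (Icc a b) t) →
      (∀ t ∈ Icc a b, HasDerivWithinAt v (g (v t)) (Icc a b) t) →
      ∀ t ∈ Icc a b, ‖u t - v t‖ ≤ ‖u 0 - v 0‖ * G := by
    intro u v hu hv t ht
    have := norm_le_gronwall_two_sided (z := fun s => u s - v s)
      (z' := fun s => g (u s) - g (v s)) (δ := ‖u 0 - v 0‖) (K := K) h0 K.2 le_rfl
      (fun s hs => (hu s hs).sub (hv s hs)) le_rfl
      (fun s _ => by simpa using hK.norm_sub_le (u s) (v s)) t ht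
    rwa [gronwallBound_ε0] at this
  -- the neighbourhood
  have hstay : ∀ x ∈ ball (γ 0) (δ / (2 * G)), ∀ t ∈ Icc a b,
      Φ x t ∈ cthickening (δ / 2) (γ '' Icc a b) := by
    intro x hx t ht
    have hγg : ∀ s ∈ Icc a b, HasDerivWithinAt γ (g (γ s)) (Icc a b) s := fun s hs => by
      rw [hgf _ (self_subset_cthickening _ (mem_image_of_mem γ hs))]
      exact hγ s hs
    have h1 := lip _ _ (hΦ x) hγg t ht
    rw [hΦ0] at h1
    rw [mem_ball, dist_eq_norm, lt_div_iff₀ (by positivity)] at hx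
    exact mem_cthickening_of_dist_le _ (γ t) _ _ (mem_image_of_mem γ ht)
      (by rw [dist_eq_norm]; linarith)
  refine ⟨ball (γ 0) (δ / (2 * G)), Φ, isOpen_ball, mem_ball_self (by positivity), ?_, ?_⟩
  · intro x hx
    refine ⟨hΦ0 x, fun t ht => ⟨hδU (cthickening_mono (by linarith) _ (hstay x hx t ht)), ?_⟩⟩
    rw [← hgf _ (hstay x hx t ht)]
    exact hΦ x t ht
  -- the derivative of the cut-off field
  set A : F → F →L[ℝ] F := fderiv ℝ g with hA
  have hAc : Continuous A := hg.continuous_fderiv one_ne_zero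
  have hAK : ∀ y, ‖A y‖ ≤ K := fun y => norm_fderiv_le_of_lipschitz ℝ hK
  have hAu : UniformContinuous A :=
    (hgs.fderiv ℝ).uniformContinuous_of_continuous hAc
  -- the variational equation
  have hvar : ∀ x, ∃ L : ℝ → F →L[ℝ] F, L 0 = ContinuousLinearMap.id ℝ F ∧
      ∀ t ∈ Icc a b, ‖L t‖ ≤ G ∧
        HasDerivWithinAt L ((A (Φ x t)).comp (L t)) (Icc a b) t := by
    intro x
    let bump : ContDiffBump (0 : F →L[ℝ] F) := ⟨G + 1, G + 2, by positivity, by linarith⟩
    let ρ : (F →L[ℝ] F) → (F →L[ℝ] F) := fun L => bump L • L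
    have hρ : ContDiff ℝ 1 ρ := bump.contDiff.smul contDiff_id
    have hρs : HasCompactSupport ρ := bump.hasCompactSupport.smul_right
    obtain ⟨K', hK'⟩ := hρ.lipschitzWith_of_hasCompactSupport hρs one_ne_zero
    obtain ⟨B', hB'⟩ := hρs.exists_bound_of_continuous hρ.continuous
    have hB'0 : 0 ≤ B' := (norm_nonneg _).trans (hB' 0)
    obtain ⟨L, hL0, hL⟩ := exists_trajectory (h := fun t L => (A (Φ x t)).comp (ρ L)) h0
      (K := K * K') (B := K * ⟨B', hB'0⟩)
      (fun t _ => LipschitzWith.of_dist_le_mul fun L L' => by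
        rw [dist_eq_norm, dist_eq_norm, ← ContinuousLinearMap.comp_sub]
        refine (ContinuousLinearMap.opNorm_comp_le _ _).trans ?_
        push_cast
        rw [mul_assoc]
        exact mul_le_mul (hAK _) (hK'.norm_sub_le L L') (norm_nonneg _) K.2)
      (fun L => (hAc.comp_continuousOn (hΦc x)).clm_comp continuousOn_const)
      (fun t _ L => (ContinuousLinearMap.opNorm_comp_le _ _).trans
        (mul_le_mul (hAK _) (hB' L) (norm_nonneg _) K.2))
      (ContinuousLinearMap.id ℝ F)
    have hρle : ∀ M, ‖ρ M‖ ≤ ‖M‖ := fun M => by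
      simp only [ρ, norm_smul, Real.norm_eq_abs, abs_of_nonneg bump.nonneg]
      exact mul_le_of_le_one_left (norm_nonneg _) bump.le_one
    have hLb : ∀ t ∈ Icc a b, ‖L t‖ ≤ G := fun t ht => by
      have := norm_le_gronwall_two_sided (δ := 1) (K := K) (ε := 0) h0 K.2 le_rfl hL
        (by rw [hL0]; exact ContinuousLinearMap.norm_id_le)
        (fun s _ => by
          rw [add_zero]
          exact (ContinuousLinearMap.opNorm_comp_le _ _).trans
            (mul_le_mul (hAK _) (hρle _) (norm_nonneg _) K.2)) t ht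
      rwa [gronwallBound_ε0, one_mul] at this
    refine ⟨L, hL0, fun t ht => ⟨hLb t ht, ?_⟩⟩
    have h2 := hL t ht
    have h1 : bump (L t) = 1 := bump.one_of_mem_closedBall
      (by rw [mem_closedBall, dist_zero_right]; linarith [hLb t ht])
    simpa only [ρ, h1, one_smul] using h2
  choose L hL0 hL using hvar
  -- the variational solution is the derivative
  suffices hd : ∀ t ∈ Icc a b, (∀ x, HasFDerivAt (fun x => Φ x t) (L x t) x) ∧
      ContDiffOn ℝ 1 (fun x => Φ x t) (ball (γ 0) (δ / (2 * G))) by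
    refine ⟨fun t ht => (hd t ht).2, fun x hx => ⟨L x, hL0 x, fun t ht => ⟨(hd t ht).1 x, ?_⟩⟩⟩
    have e : fderiv ℝ f (Φ x t) = A (Φ x t) := by
      refine (Filter.EventuallyEq.fderiv_eq ?_).symm
      filter_upwards [hχ1 _ (hstay x hx t ht)] with z hz
      simp [g, hz]
    rw [e]
    exact (hL x t ht).2
  intro t ht
  set C : ℝ := gronwallBound 0 K 1 (b - a) with hC
  have hCε : ∀ ε : ℝ, gronwallBound 0 K ε (b - a) = ε * C := fun ε => by
    rcases eq_or_ne (K : ℝ) 0 with h | h
    · simp [hC, h, gronwallBound_K0]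
    · simp [hC, gronwallBound_of_K_ne_0 h]; ring
  have hC0 : 0 ≤ C := by
    have h0' := norm_le_gronwall_two_sided (z := fun _ : ℝ => (0:ℝ)) (z' := fun _ => 0)
      (δ := 0) (K := K) (ε := 1) h0 K.2 zero_le_one
      (fun s _ => hasDerivWithinAt_const s _ _) (by simp) (fun s _ => by simp) t ht
    simpa using h0'
  have hderiv : ∀ x, HasFDerivAt (fun x => Φ x t) (L x t) x := by
    intro x
    rw [hasFDerivAt_iff_isLittleO_nhds_zero, Asymptotics.isLittleO_iff]
    intro ε hε
    have hε' : 0 < ε / (G * C + 1) := by positivity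
    obtain ⟨η, hη, hηA⟩ := Metric.uniformContinuous_iff.1 hAu _ hε'
    filter_upwards [ball_mem_nhds (0 : F) (div_pos hη hG0)] with h hh
    rw [mem_ball, dist_zero_right, lt_div_iff₀ hG0] at hh
    have key : ∀ s ∈ Icc a b, ‖g (Φ (x + h) s) - g (Φ x s) - A (Φ x s) (Φ (x + h) s - Φ x s)‖
        ≤ ε / (G * C + 1) * (‖h‖ * G) := by
      intro s hs
      have hd : ‖Φ (x + h) s - Φ x s‖ ≤ ‖h‖ * G := by
        simpa [hΦ0] using lip _ _ (hΦ (x + h)) (hΦ x) s hs
      refine ((convex_ball (Φ x s) η).norm_image_sub_le_of_norm_fderiv_le'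
        (fun y _ => hg.differentiable one_ne_zero y) (fun y hy => ?_) (mem_ball_self hη)
        (by rw [mem_ball, dist_eq_norm]; linarith)).trans
        (mul_le_mul_of_nonneg_left hd hε'.le)
      rw [← dist_eq_norm]
      exact (hηA (mem_ball.1 hy)).le
    have hz := norm_le_gronwall_two_sided
      (z := fun s => Φ (x + h) s - Φ x s - L x s h)
      (z' := fun s => g (Φ (x + h) s) - g (Φ x s) - ((A (Φ x s)).comp (L x s)) h)
      (δ := 0) (K := K) (ε := ε / (G * C + 1) * (‖h‖ * G)) h0 K.2 (by positivity)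
      (fun s hs => ((hΦ (x + h) s hs).sub (hΦ x s hs)).sub
        ((ContinuousLinearMap.apply ℝ F h).hasFDerivAt.comp_hasDerivWithinAt s (hL x s hs).2))
      (by simp [hΦ0, hL0])
      (fun s hs => by
        have e : g (Φ (x + h) s) - g (Φ x s) - ((A (Φ x s)).comp (L x s)) h =
            A (Φ x s) (Φ (x + h) s - Φ x s - L x s h) +
              (g (Φ (x + h) s) - g (Φ x s) - A (Φ x s) (Φ (x + h) s - Φ x s)) := by
          simp only [ContinuousLinearMap.comp_apply, map_sub]; abel
        rw [e]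
        exact (norm_add_le _ _).trans
          (add_le_add (((A (Φ x s)).le_opNorm _).trans
            (mul_le_mul_of_nonneg_right (hAK _) (norm_nonneg _))) (key s hs))) t ht
    rw [hCε] at hz
    refine hz.trans ?_
    calc ε / (G * C + 1) * (‖h‖ * G) * C = ε * ‖h‖ * (G * C / (G * C + 1)) := by ring
      _ ≤ ε * ‖h‖ * 1 := mul_le_mul_of_nonneg_left
          ((div_le_one (by positivity)).2 (by linarith)) (by positivity)
      _ = ε * ‖h‖ := mul_one _
  -- continuity of the derivative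
  have hcont : Continuous fun x => L x t := by
    refine Metric.continuous_iff.2 fun x ε hε => ?_
    have hε' : 0 < ε / (G * C + 1) := by positivity
    obtain ⟨η, hη, hηA⟩ := Metric.uniformContinuous_iff.1 hAu _ hε'
    refine ⟨η / G, div_pos hη hG0, fun y hy => ?_⟩
    rw [dist_eq_norm, lt_div_iff₀ hG0] at hy
    rw [dist_eq_norm]
    have hz := norm_le_gronwall_two_sided (z := fun s => L y s - L x s)
      (z' := fun s => (A (Φ y s)).comp (L y s) - (A (Φ x s)).comp (L x s))
      (δ := 0) (K := K) (ε := ε / (G * C + 1) * G) h0 K.2 (by positivity)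
      (fun s hs => (hL y s hs).2.sub (hL x s hs).2) (by simp [hL0])
      (fun s hs => by
        have e : (A (Φ y s)).comp (L y s) - (A (Φ x s)).comp (L x s) =
            (A (Φ y s)).comp (L y s - L x s) + (A (Φ y s) - A (Φ x s)).comp (L x s) := by
          ext v; simp
        have hd : ‖A (Φ y s) - A (Φ x s)‖ ≤ ε / (G * C + 1) := by
          have := lip _ _ (hΦ y) (hΦ x) s hs
          rw [hΦ0, hΦ0] at this
          rw [← dist_eq_norm]
          exact (hηA (show dist (Φ y s) (Φ x s) < η by rw [dist_eq_norm]; linarith)).le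
        rw [e]
        exact (norm_add_le _ _).trans (add_le_add
          ((ContinuousLinearMap.opNorm_comp_le _ _).trans
            (mul_le_mul_of_nonneg_right (hAK _) (norm_nonneg _)))
          ((ContinuousLinearMap.opNorm_comp_le _ _).trans
            (mul_le_mul hd (hL x s hs).1 (norm_nonneg _) hε'.le)))) t ht
    rw [hCε] at hz
    refine hz.trans_lt ?_
    calc ε / (G * C + 1) * G * C = ε * (G * C / (G * C + 1)) := by ring
      _ < ε * 1 := mul_lt_mul_of_pos_left ((div_lt_one (by positivity)).2 (by linarith)) hε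
      _ = ε := mul_one _
  refine ⟨hderiv, (contDiff_one_iff_fderiv.2
    ⟨fun x => (hderiv x).differentiableAt, ?_⟩).contDiffOn⟩
  rwa [show fderiv ℝ (fun x => Φ x t) = fun x => L x t from funext fun x => (hderiv x).fderiv]

/-- The flow of a `C¹` vector field is `C¹` in the initial point. -/
theorem exists_flow_contDiff {F : Type} [NormedAddCommGroup F] [NormedSpace ℝ F]
    [FiniteDimensional ℝ F] {f : F → F} {U : Set F} (hU : IsOpen U) (hf : ContDiffOn ℝ 1 f U)
    {γ : ℝ → F} {a b : ℝ} (h0 : (0:ℝ) ∈ Icc a b) (hγU : ∀ t ∈ Icc a b, γ t ∈ U)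
    (hγ : ∀ t ∈ Icc a b, HasDerivWithinAt γ (f (γ t)) (Icc a b) t) :
    ∃ (V : Set F) (Φ : F → ℝ → F), IsOpen V ∧ γ 0 ∈ V ∧
      (∀ x ∈ V, Φ x 0 = x ∧ ∀ t ∈ Icc a b, Φ x t ∈ U ∧
        HasDerivWithinAt (Φ x) (f (Φ x t)) (Icc a b) t) ∧
      ∀ t ∈ Icc a b, ContDiffOn ℝ 1 (fun x => Φ x t) V := by
  obtain ⟨V, Φ, hV, h1, h2, h3, -⟩ := exists_flow_variational hU hf h0 hγU hγ
  exact ⟨V, Φ, hV, h1, h2, h3⟩

end Vale.Agent.P255
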