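import Vale.Agent.P255.Riem.Bridge

/-!
# P255 module D2a, first part: geodesics as curves on the manifold

A geodesic is a curve whose state (point, velocity), read in any chart containing the point,
solves the autonomous first order system of that chart. It is enough to check one chart around
each time, and two geodesics with the same state at one time agree.
-/

open scoped Manifold ContDiff
open Bundle Set Filter Topology

namespace Vale.Agent.P255

set_option maxSynthPendingDepth 3

variable {M : Type} [TopologicalSpace M] [ChartedSpace E3 M] [IsManifold (𝓡 3) ∞ M]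

/-- the first order geodesic system in the chart at `x` -/
noncomputable def geoSpray (h : Metric 3 M) (x : M) (q : E3 × E3) : E3 × E3 :=
  (q.2, -christoffel (metricInChart h x) q.1 q.2 q.2)

/-- the domain of `geoSpray` -/
def geoDom (x : M) : Set (E3 × E3) := (extChartAt (𝓡 3) x).target ×ˢ univ

/-- point and velocity read in the chart at `x` -/
noncomputable def geoState (γ : ℝ → M) (x : M) (t : ℝ) : E3 × E3 :=
  (curveIn γ x t, deriv (curveIn γ x) t)

/-- a change of coordinates acting on points and velocities -/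
noncomputable def liftState (φ : E3 → E3) (q : E3 × E3) : E3 × E3 :=
  (φ q.1, fderiv ℝ φ q.1 q.2)

/-- `γ` is a geodesic on `I` (used for open `I`) -/
def GeoOn (h : Metric 3 M) (γ : ℝ → M) (I : Set ℝ) : Prop :=
  ContinuousOn γ I ∧ ∀ t ∈ I, ∀ x, γ t ∈ (extChartAt (𝓡 3) x).source →
    HasDerivAt (geoState γ x) (geoSpray h x (geoState γ x t)) t

/-- the squared speed -/
noncomputable def geoSpeed (h : Metric 3 M) (γ : ℝ → M) (t : ℝ) : ℝ :=
  metricInChart h (γ t) (curveIn γ (γ t) t) (deriv (curveIn γ (γ t)) t)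
    (deriv (curveIn γ (γ t)) t)

variable {h : Metric 3 M} {γ γ' : ℝ → M} {I J : Set ℝ} {x x' : M} {t : ℝ}

omit [IsManifold (𝓡 3) ∞ M] in
theorem isOpen_geoDom (x : M) : IsOpen (geoDom x) :=
  (isOpen_extChartAt_target x).prod isOpen_univ

theorem metric_invertible {G : E3 → Form 3} {y : E3} (h : MetricNear G y) :
    (G y).IsInvertible := by
  have hi : Function.Injective (G y).toLinearMap := by
    refine (injective_iff_map_eq_zero _).2 fun a ha => ?_
    by_contra h0
    have h1 := h.pos.self_of_nhds a h0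
    rw [show G y a = 0 from ha] at h1
    simp at h1
  have hd : Module.finrank ℝ E3 = Module.finrank ℝ (E3 →L[ℝ] ℝ) :=
    (InnerProductSpace.toDual ℝ E3).toLinearEquiv.finrank_eq
  exact ⟨(LinearMap.linearEquivOfInjective (G y).toLinearMap hi hd).toContinuousLinearEquiv,
    by ext1; rfl⟩

theorem contDiffAt_koszul {E F : Type} [NormedAddCommGroup E] [NormedSpace ℝ E] [CompleteSpace E]
    [NormedAddCommGroup F] [NormedSpace ℝ F] {G : E → E →L[ℝ] E →L[ℝ] ℝ} {Y U V : F → E} {q : F}
    (hG : ContDiffAt ℝ ∞ G (Y q)) (hi : (G (Y q)).IsInvertible)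
    (hY : ContDiffAt ℝ ∞ Y q) (hU : ContDiffAt ℝ ∞ U q) (hV : ContDiffAt ℝ ∞ V q) :
    ContDiffAt ℝ ∞ (fun p => (G (Y p)).inverse ((1 / 2 : ℝ) •
      (fderiv ℝ G (Y p) (U p) (V p) + fderiv ℝ G (Y p) (V p) (U p)
        - ((fderiv ℝ G (Y p)).flip (U p)).flip (V p)))) q := by
  have hD : ContDiffAt ℝ ∞ (fun p => fderiv ℝ G (Y p)) q :=
    (hG.fderiv_right (m := ∞) (by simp)).comp q hY
  have h1 := (hi.contDiffAt_map_inverse (n := ∞)).comp q (hG.comp q hY)
  have hu := ((ContinuousLinearMap.apply ℝ (E →L[ℝ] ℝ)).contDiff.contDiffAt (n := ∞)).comp q hU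
  have hv := ((ContinuousLinearMap.apply ℝ ℝ (E := E)).contDiff.contDiffAt (n := ∞)).comp q hV
  have h3 : ContDiffAt ℝ ∞ (fun p => ((fderiv ℝ G (Y p)).flip (U p)).flip (V p)) q := by
    refine (hv.clm_comp (hu.clm_comp hD)).congr_of_eventuallyEq
      (Filter.Eventually.of_forall fun p => ?_)
    ext w
    rfl
  exact h1.clm_apply
    (((((hD.clm_apply hU).clm_apply hV).add ((hD.clm_apply hV).clm_apply hU)).sub h3).const_smul
      (1 / 2 : ℝ))

theorem contDiffAt_christoffel_apply {F : Type} [NormedAddCommGroup F] [NormedSpace ℝ F]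
    {G : E3 → Form 3} {Y U V : F → E3} {q : F} (h : MetricNear G (Y q))
    (hY : ContDiffAt ℝ ∞ Y q) (hU : ContDiffAt ℝ ∞ U q) (hV : ContDiffAt ℝ ∞ V q) :
    ContDiffAt ℝ ∞ (fun p => christoffel G (Y p) (U p) (V p)) q :=
  contDiffAt_koszul h.smooth.self_of_nhds (metric_invertible h) hY hU hV

/-- a state derivative gives the derivative of the point and of the velocity -/
theorem hasDerivAt_fst_snd {α : ℝ → E3 × E3} {α' : E3 × E3} {s : ℝ} (hd : HasDerivAt α α' s) :
    HasDerivAt (fun r => (α r).1) α'.1 s ∧ HasDerivAt (fun r => (α r).2) α'.2 s :=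
  ⟨(ContinuousLinearMap.fst ℝ E3 E3).hasFDerivAt.comp_hasDerivAt s hd,
    (ContinuousLinearMap.snd ℝ E3 E3).hasFDerivAt.comp_hasDerivAt s hd⟩

theorem geoSpray_contDiffOn (h : Metric 3 M) (x : M) :
    ContDiffOn ℝ ∞ (geoSpray h x) (geoDom x) := fun _ hq =>
  (contDiffAt_snd.prodMk (contDiffAt_christoffel_apply (metricInChart_near h x hq.1)
    contDiffAt_fst contDiffAt_snd contDiffAt_snd).neg).contDiffWithinAt

omit [IsManifold (𝓡 3) ∞ M] in
theorem geoState_mem (ht : γ t ∈ (extChartAt (𝓡 3) x).source) : geoState γ x t ∈ geoDom x :=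
  ⟨(extChartAt (𝓡 3) x).map_source ht, mem_univ _⟩

/-- the geodesic system is preserved by a change of coordinates -/
theorem hasDerivAt_liftState {φ : E3 → E3} {G G' : E3 → Form 3} {z u : ℝ → E3}
    (hG : MetricNear G (z t)) (hp : PullsBack φ G G' (z t)) (hz : HasDerivAt z (u t) t)
    (hu : HasDerivAt u (-christoffel G (z t) (u t) (u t)) t) :
    HasDerivAt (fun s => (φ (z s), fderiv ℝ φ (z s) (u s)))
      (fderiv ℝ φ (z t) (u t),
        -christoffel G' (φ (z t)) (fderiv ℝ φ (z t) (u t)) (fderiv ℝ φ (z t) (u t))) t := by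
  have h1 : HasFDerivAt φ (fderiv ℝ φ (z t)) (z t) :=
    (hp.1.differentiableAt (by simp)).hasFDerivAt
  have h2 : HasFDerivAt (fderiv ℝ φ) (fderiv ℝ (fderiv ℝ φ) (z t)) (z t) :=
    ((hp.1.fderiv_right (m := ∞) (by simp)).differentiableAt (by simp)).hasFDerivAt
  have hd2 := (h2.comp_hasDerivAt t hz).clm_apply hu
  refine (h1.comp_hasDerivAt t hz).prodMk (hd2.congr_deriv ?_)
  have e := christoffel_transform hG hp (u t) (u t)
  simp only [Function.comp_apply, map_neg]
  rw [e]
  abel

/-- the speed is constant along solutions -/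
theorem hasDerivAt_speed_sol {G : E3 → Form 3} {z u : ℝ → E3} (hG : MetricNear G (z t))
    (hz : HasDerivAt z (u t) t) (hu : HasDerivAt u (-christoffel G (z t) (u t) (u t)) t) :
    HasDerivAt (fun s => G (z s) (u s) (u s)) 0 t := by
  have hG' : HasFDerivAt G (fderiv ℝ G (z t)) (z t) :=
    ((hG.smooth.self_of_nhds).differentiableAt (by simp)).hasFDerivAt
  have h1 := ((hG'.comp_hasDerivAt t hz).clm_apply hu).clm_apply hu
  have e1 := christoffel_spec hG (u t) (u t) (u t)
  have e2 := hG.symm.self_of_nhds (u t) (christoffel G (z t) (u t) (u t))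
  refine h1.congr_deriv ?_
  simp only [Function.comp_apply, map_neg, add_apply,
    neg_apply]
  linarith

/-- where two charts are defined the states correspond -/
theorem geoState_change_step (hx : γ t ∈ (extChartAt (𝓡 3) x).source)
    (hx' : γ t ∈ (extChartAt (𝓡 3) x').source) (hd : HasDerivAt (geoState γ x)
      (geoSpray h x (geoState γ x t)) t)
    (hs : ∀ᶠ s in 𝓝 t, γ s ∈ (extChartAt (𝓡 3) x).source) :
    geoState γ x' t
      = liftState ((extChartAt (𝓡 3) x') ∘ (extChartAt (𝓡 3) x).symm) (geoState γ x t) := by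
  have hz : HasDerivAt (curveIn γ x) (deriv (curveIn γ x) t) t := (hasDerivAt_fst_snd hd).1
  have he : curveIn γ x' =ᶠ[𝓝 t]
      ((extChartAt (𝓡 3) x') ∘ (extChartAt (𝓡 3) x).symm) ∘ curveIn γ x := by
    filter_upwards [hs] with r hr
    show extChartAt (𝓡 3) x' (γ r) = extChartAt (𝓡 3) x' _
    exact congrArg _ ((extChartAt (𝓡 3) x).left_inv hr).symm
  have hp : DifferentiableAt ℝ ((extChartAt (𝓡 3) x') ∘ (extChartAt (𝓡 3) x).symm)
      (curveIn γ x t) := ((metricInChart_pullsBack h x x' hx hx').1).differentiableAt (by simp)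
  exact Prod.ext he.self_of_nhds
    ((hp.hasFDerivAt.comp_hasDerivAt t hz).congr_of_eventuallyEq he).deriv

/-- a solution in one chart solves the system of every other chart -/
theorem geoState_change_aux
    (hev : ∀ᶠ s in 𝓝 t, γ s ∈ (extChartAt (𝓡 3) x).source ∧
      γ s ∈ (extChartAt (𝓡 3) x').source ∧
      HasDerivAt (geoState γ x) (geoSpray h x (geoState γ x s)) s) :
    geoState γ x' t
        = liftState ((extChartAt (𝓡 3) x') ∘ (extChartAt (𝓡 3) x).symm) (geoState γ x t) ∧
      HasDerivAt (geoState γ x') (geoSpray h x' (geoState γ x' t)) t := by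
  have step : ∀ᶠ s in 𝓝 t, geoState γ x' s
      = liftState ((extChartAt (𝓡 3) x') ∘ (extChartAt (𝓡 3) x).symm) (geoState γ x s) := by
    filter_upwards [eventually_eventually_nhds.2 hev] with s hs
    obtain ⟨hx, hx', hd⟩ := hs.self_of_nhds
    exact geoState_change_step hx hx' hd (hs.mono fun r hr => hr.1)
  refine ⟨step.self_of_nhds, ?_⟩
  obtain ⟨hx, hx', hd⟩ := hev.self_of_nhds
  have hd' := hasDerivAt_liftState (G := metricInChart h x) (G' := metricInChart h x')
    (z := fun s => (geoState γ x s).1) (u := fun s => (geoState γ x s).2)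
    (metricInChart_near h x ((extChartAt (𝓡 3) x).map_source hx))
    (metricInChart_pullsBack h x x' hx hx')
    (hasDerivAt_fst_snd hd).1 (hasDerivAt_fst_snd hd).2
  rw [step.self_of_nhds]
  exact hd'.congr_of_eventuallyEq step

theorem GeoOn.mono (hg : GeoOn h γ I) (hJ : J ⊆ I) : GeoOn h γ J :=
  ⟨hg.1.mono hJ, fun t ht => hg.2 t (hJ ht)⟩

theorem GeoOn.congr (hg : GeoOn h γ I) (hI : IsOpen I) (he : EqOn γ' γ I) : GeoOn h γ' I := by
  refine ⟨hg.1.congr he, fun t ht x hx => ?_⟩
  have he1 : ∀ᶠ s in 𝓝 t, curveIn γ' x s = curveIn γ x s := by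
    filter_upwards [hI.mem_nhds ht] with s hs
    simp [curveIn, he hs]
  have he2 : geoState γ' x =ᶠ[𝓝 t] geoState γ x := by
    filter_upwards [he1, eventually_eventually_nhds.2 he1] with s h1 h2
    exact Prod.ext h1 (Filter.EventuallyEq.deriv_eq h2)
  rw [he2.self_of_nhds]
  exact (hg.2 t ht x (he ht ▸ hx)).congr_of_eventuallyEq he2

theorem GeoOn.eventually_source (hg : GeoOn h γ I) (hI : IsOpen I) (ht : t ∈ I)
    (hx : γ t ∈ (extChartAt (𝓡 3) x).source) :
    ∀ᶠ s in 𝓝 t, s ∈ I ∧ γ s ∈ (extChartAt (𝓡 3) x).source :=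
  (hI.eventually_mem ht).and ((hg.1.continuousAt (hI.mem_nhds ht)).eventually_mem
    ((isOpen_extChartAt_source x).mem_nhds hx))

theorem GeoOn.state_change (hg : GeoOn h γ I) (hI : IsOpen I) (ht : t ∈ I)
    (hx : γ t ∈ (extChartAt (𝓡 3) x).source) (hx' : γ t ∈ (extChartAt (𝓡 3) x').source) :
    geoState γ x' t
      = liftState ((extChartAt (𝓡 3) x') ∘ (extChartAt (𝓡 3) x).symm) (geoState γ x t) := by
  refine (geoState_change_aux (h := h) ?_).1
  filter_upwards [hg.eventually_source hI ht hx, hg.eventually_source hI ht hx'] with s h1 h2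
  exact ⟨h1.2, h2.2, hg.2 s h1.1 x h1.2⟩

/-- it is enough to solve the system in one chart around each time -/
theorem geoOn_of_local (hc : ContinuousOn γ I) (hI : IsOpen I)
    (hl : ∀ t ∈ I, ∃ x, ∀ᶠ s in 𝓝 t, γ s ∈ (extChartAt (𝓡 3) x).source ∧
      HasDerivAt (geoState γ x) (geoSpray h x (geoState γ x s)) s) :
    GeoOn h γ I := by
  refine ⟨hc, fun t ht x' hx' => ?_⟩
  obtain ⟨x, hx⟩ := hl t ht
  refine (geoState_change_aux (x := x) ?_).2
  filter_upwards [hx, (hc.continuousAt (hI.mem_nhds ht)).eventually_mem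
    ((isOpen_extChartAt_source x').mem_nhds hx')] with s h1 h2
  exact ⟨h1.1, h2, h1.2⟩

/-- a trajectory of the system in one chart is a geodesic -/
theorem geoOn_of_sol {α : ℝ → E3 × E3} (hI : IsOpen I) (hα : ∀ s ∈ I, α s ∈ geoDom x)
    (hd : ∀ s ∈ I, HasDerivAt α (geoSpray h x (α s)) s) :
    GeoOn h (fun s => (extChartAt (𝓡 3) x).symm (α s).1) I ∧
      ∀ s ∈ I, geoState (fun s => (extChartAt (𝓡 3) x).symm (α s).1) x s = α s := by
  set γ := fun s => (extChartAt (𝓡 3) x).symm (α s).1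
  have hst : ∀ s ∈ I, geoState γ x s = α s := fun s hs => by
    have he : curveIn γ x =ᶠ[𝓝 s] fun r => (α r).1 := by
      filter_upwards [hI.mem_nhds hs] with r hr
      exact (extChartAt (𝓡 3) x).right_inv (hα r hr).1
    have hz : HasDerivAt (fun r => (α r).1) (α s).2 s :=
      (hasDerivAt_fst_snd (hd s hs)).1
    exact Prod.ext he.self_of_nhds (hz.congr_of_eventuallyEq he).deriv
  have hc : ContinuousOn γ I :=
    (continuousOn_extChartAt_symm x).comp
      (continuous_fst.comp_continuousOn fun s hs => (hd s hs).continuousAt.continuousWithinAt)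
      fun s hs => (hα s hs).1
  refine ⟨geoOn_of_local hc hI fun t ht => ⟨x, ?_⟩, hst⟩
  filter_upwards [hI.mem_nhds ht] with s hs
  refine ⟨(extChartAt (𝓡 3) x).map_target (hα s hs).1, ?_⟩
  rw [hst s hs]
  refine (hd s hs).congr_of_eventuallyEq ?_
  filter_upwards [hI.mem_nhds hs] with r hr using hst r hr

/-- geodesics with the same state at one time agree -/
theorem GeoOn.eqOn [T2Space M] (hg : GeoOn h γ I) (hg' : GeoOn h γ' I) (hI : IsOpen I)
    (hc : IsPreconnected I) {t₀ : ℝ} (ht₀ : t₀ ∈ I) (hp : γ t₀ = γ' t₀)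
    (hx : γ t₀ ∈ (extChartAt (𝓡 3) x).source) (hs : geoState γ x t₀ = geoState γ' x t₀) :
    EqOn γ γ' I := by
  set S := {s | s ∈ I ∧ γ s = γ' s ∧ ∀ y, γ s ∈ (extChartAt (𝓡 3) y).source →
    geoState γ y s = geoState γ' y s}
  have tr : ∀ (s : ℝ) (y : M), s ∈ I → γ s = γ' s → γ s ∈ (extChartAt (𝓡 3) y).source →
      geoState γ y s = geoState γ' y s → s ∈ S := by
    refine fun s y hs hp' hy he => ⟨hs, hp', fun y' hy' => ?_⟩
    rw [hg.state_change hI hs hy hy', he, ← hg'.state_change hI hs (hp' ▸ hy) (hp' ▸ hy')]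
  suffices h' : I ⊆ S from fun s hs => (h' hs).2.1
  refine hc.subset_of_closure_inter_subset ?_ ⟨t₀, ht₀, tr t₀ x ht₀ hp hx hs⟩ ?_
  · refine isOpen_iff_eventually.2 fun s ⟨hsI, hsp, hst⟩ => ?_
    have hy := mem_extChartAt_source (I := 𝓡 3) (γ s)
    obtain ⟨K, U, hU, hK⟩ := ((geoSpray_contDiffOn h (γ s)).contDiffAt
      ((isOpen_geoDom _).mem_nhds (geoState_mem hy))).of_le (show (1 : ℕ∞) ≤ (∞ : WithTop ℕ∞) by
        simp) |>.exists_lipschitzOnWith
    have hd : ∀ σ, GeoOn h σ I → σ s ∈ (extChartAt (𝓡 3) (γ s)).source →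
        geoState σ (γ s) s = geoState γ (γ s) s →
        ∀ᶠ r in 𝓝 s, HasDerivAt (geoState σ (γ s))
          (geoSpray h (γ s) (geoState σ (γ s) r)) r ∧ geoState σ (γ s) r ∈ U := by
      intro σ hσ hσy hσe
      have hU' : U ∈ 𝓝 (geoState σ (γ s) s) := hσe ▸ hU
      filter_upwards [hσ.eventually_source hI hsI hσy,
        (hσ.2 s hsI _ hσy).continuousAt.eventually_mem hU'] with r h1 h2
      exact ⟨hσ.2 r h1.1 _ h1.2, h2⟩
    have he := ODE_solution_unique_of_eventually (v := fun _ => geoSpray h (γ s))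
      (s := fun _ => U) (Filter.Eventually.of_forall fun _ => hK) (hd γ hg hy rfl)
      (hd γ' hg' (hsp ▸ hy) (hst _ hy).symm) (hst _ hy)
    have hy' : γ' s ∈ (extChartAt (𝓡 3) (γ s)).source := by rw [← hsp]; exact hy
    filter_upwards [he, hg.eventually_source hI hsI hy,
      hg'.eventually_source hI hsI hy'] with r h1 h2 h3
    refine tr r (γ s) h2.1 ((extChartAt (𝓡 3) (γ s)).injOn h2.2 h3.2 ?_) h2.2 h1
    exact congrArg Prod.fst h1
  · rintro s ⟨hs, hsI⟩
    have hf : ∃ᶠ r in 𝓝 s, r ∈ S := mem_closure_iff_frequently.1 hs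
    have hp' : γ s = γ' s :=
      tendsto_nhds_unique_of_frequently_eq (hg.1.continuousAt (hI.mem_nhds hsI))
        (hg'.1.continuousAt (hI.mem_nhds hsI)) (hf.mono fun r hr => hr.2.1)
    have hy := mem_extChartAt_source (I := 𝓡 3) (γ s)
    refine tr s (γ s) hsI hp' hy (tendsto_nhds_unique_of_frequently_eq
      (hg.2 s hsI _ hy).continuousAt (hg'.2 s hsI _ (hp' ▸ hy)).continuousAt ?_)
    exact (hf.and_eventually (hg.eventually_source hI hsI hy)).mono fun r hr =>
      hr.1.2.2 _ hr.2.2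

/-- gluing -/
theorem GeoOn.union (hg : GeoOn h γ I) (hg' : GeoOn h γ' J) (hI : IsOpen I) (hJ : IsOpen J)
    (he : EqOn γ γ' (I ∩ J)) : ∃ σ, GeoOn h σ (I ∪ J) ∧ EqOn σ γ I ∧ EqOn σ γ' J := by
  classical
  have h1 : EqOn (I.piecewise γ γ') γ I := fun s hs => piecewise_eq_of_mem _ _ _ hs
  have h2 : EqOn (I.piecewise γ γ') γ' J := fun s hs => by
    by_cases hsI : s ∈ I
    · rw [piecewise_eq_of_mem _ _ _ hsI, he ⟨hsI, hs⟩]
    · rw [piecewise_eq_of_notMem _ _ _ hsI]
  have g1 := hg.congr hI h1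
  have g2 := hg'.congr hJ h2
  refine ⟨_, ⟨g1.1.union_of_isOpen g2.1 hI hJ, ?_⟩, h1, h2⟩
  rintro t (ht | ht) y hy
  exacts [g1.2 t ht y hy, g2.2 t ht y hy]

theorem GeoOn.speed_chart (hg : GeoOn h γ I) (hI : IsOpen I) (ht : t ∈ I)
    (hx : γ t ∈ (extChartAt (𝓡 3) x).source) :
    metricInChart h x (geoState γ x t).1 (geoState γ x t).2 (geoState γ x t).2
      = geoSpeed h γ t := by
  have hy := mem_extChartAt_source (I := 𝓡 3) (γ t)
  have e1 := hg.state_change hI ht hx hy
  obtain ⟨-, -, e2⟩ := metricInChart_pullsBack h x (γ t) hx hy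
  have e3 : metricInChart h x (geoState γ x t).1 = _ := e2.self_of_nhds
  rw [e3]
  have e4 : geoSpeed h γ t = metricInChart h (γ t) (geoState γ (γ t) t).1
      (geoState γ (γ t) t).2 (geoState γ (γ t) t).2 := rfl
  rw [e4, e1]
  rfl

theorem GeoOn.hasDerivAt_speed (hg : GeoOn h γ I) (hI : IsOpen I) (ht : t ∈ I) :
    HasDerivAt (geoSpeed h γ) 0 t := by
  have hy := mem_extChartAt_source (I := 𝓡 3) (γ t)
  have hd := hg.2 t ht _ hy
  refine (hasDerivAt_speed_sol (G := metricInChart h (γ t))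
    (z := fun s => (geoState γ (γ t) s).1) (u := fun s => (geoState γ (γ t) s).2)
    (metricInChart_near h _ (geoState_mem hy).1)
    (hasDerivAt_fst_snd hd).1 (hasDerivAt_fst_snd hd).2).congr_of_eventuallyEq ?_
  filter_upwards [hg.eventually_source hI ht hy] with s hs
  exact (hg.speed_chart hI hs.1 hs.2).symm

theorem GeoOn.speed_const (hg : GeoOn h γ I) (hI : IsOpen I) (hc : IsPreconnected I) {t₀ : ℝ}
    (ht₀ : t₀ ∈ I) (ht : t ∈ I) : geoSpeed h γ t = geoSpeed h γ t₀ :=
  hI.is_const_of_deriv_eq_zero hc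
    (fun _ hs => (hg.hasDerivAt_speed hI hs).differentiableAt.differentiableWithinAt)
    (fun _ hs => (hg.hasDerivAt_speed hI hs).deriv) ht ht₀

theorem christoffel_smul (G : E3 → Form 3) (y u : E3) (c : ℝ) :
    christoffel G y (c • u) (c • u) = (c * c) • christoffel G y u u := by
  rw [christoffel, christoffel, ← map_smul]
  congr 1
  ext w
  simp
  ring

/-- affine reparametrisation -/
theorem GeoOn.comp_affine (hg : GeoOn h γ I) (hI : IsOpen I) (c d : ℝ) :
    GeoOn h (fun s => γ (c * s + d)) ((fun s => c * s + d) ⁻¹' I) ∧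
      ∀ s, c * s + d ∈ I → ∀ x, γ (c * s + d) ∈ (extChartAt (𝓡 3) x).source →
        geoState (fun s => γ (c * s + d)) x s
          = ((geoState γ x (c * s + d)).1, c • (geoState γ x (c * s + d)).2) := by
  have ha : ∀ s : ℝ, HasDerivAt (fun r => c * r + d) c s := fun s => by
    simpa using ((hasDerivAt_id s).const_mul c).add_const d
  have hcont : Continuous fun r : ℝ => c * r + d := by fun_prop
  have hst : ∀ s, c * s + d ∈ I → ∀ x, γ (c * s + d) ∈ (extChartAt (𝓡 3) x).source →
      geoState (fun s => γ (c * s + d)) x s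
        = ((geoState γ x (c * s + d)).1, c • (geoState γ x (c * s + d)).2) := by
    intro s hs x hx
    have hz : HasDerivAt (curveIn γ x) (deriv (curveIn γ x) (c * s + d)) (c * s + d) :=
      (hasDerivAt_fst_snd (hg.2 _ hs x hx)).1
    refine Prod.ext rfl ?_
    show deriv (curveIn γ x ∘ fun r => c * r + d) s = c • deriv (curveIn γ x) (c * s + d)
    exact (hz.scomp s (ha s)).deriv
  refine ⟨⟨hg.1.comp hcont.continuousOn (mapsTo_preimage _ _), fun s hs x hx => ?_⟩, hst⟩
  have hd := hg.2 _ hs x hx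
  have hz : HasDerivAt (fun r => (geoState γ x r).1) (geoState γ x (c * s + d)).2 (c * s + d) :=
    (hasDerivAt_fst_snd hd).1
  have hu : HasDerivAt (fun r => (geoState γ x r).2)
      (-christoffel (metricInChart h x) (geoState γ x (c * s + d)).1
        (geoState γ x (c * s + d)).2 (geoState γ x (c * s + d)).2) (c * s + d) :=
    (hasDerivAt_fst_snd hd).2
  have hd' := (hz.scomp s (ha s)).prodMk ((hu.scomp s (ha s)).const_smul c)
  have hev : geoState (fun r => γ (c * r + d)) x =ᶠ[𝓝 s]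
      fun r => ((geoState γ x (c * r + d)).1, c • (geoState γ x (c * r + d)).2) := by
    filter_upwards [hcont.continuousAt.eventually (hg.eventually_source hI hs hx)] with r hr
    exact hst r hr.1 x hr.2
  refine (hd'.congr_of_eventuallyEq hev).congr_deriv ?_
  simp [geoSpray, hst s hs x hx, christoffel_smul, smul_smul]

end Vale.Agent.P255
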