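import Vale.Agent.P255.NPC.GeoBasic
import Vale.Agent.P255.NPC.FlowC1

/-!
# P255 module D2a, second part: geodesics of a closed manifold exist for all times

Near each point of the manifold a bound on the speed gives a uniform existence time; by
compactness the time is uniform on the manifold, and geodesics have constant speed.
-/

open scoped Manifold ContDiff NNReal
open Bundle Set Filter Topology Metric

namespace Vale.Agent.P255

variable {M : Type} [TopologicalSpace M] [ChartedSpace E3 M] [IsManifold (𝓡 3) ∞ M]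

/-- the metric is bounded below on compact pieces of a chart -/
lemma exists_metric_lower (h : Metric 3 M) (x : M) {K : Set E3} (hK : IsCompact K)
    (hKT : K ⊆ (extChartAt (𝓡 3) x).target) :
    ∃ c : ℝ, 0 < c ∧ ∀ y ∈ K, ∀ v, c * ‖v‖ ^ 2 ≤ metricInChart h x y v v := by
  set G := metricInChart h x with hG
  have hc : ContinuousOn (fun q : E3 × E3 => G q.1 q.2 q.2) (K ×ˢ sphere (0 : E3) 1) := by
    have h1 : ContinuousOn (fun q : E3 × E3 => G q.1) (K ×ˢ sphere (0 : E3) 1) := fun q hq =>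
      ((metricInChart_near h x (hKT hq.1)).smooth.self_of_nhds.continuousAt.comp
        continuousAt_fst).continuousWithinAt
    exact (h1.clm_apply continuous_snd.continuousOn).clm_apply continuous_snd.continuousOn
  have hpos : ∀ q ∈ K ×ˢ sphere (0 : E3) 1, 0 < G q.1 q.2 q.2 := fun q hq =>
    (metricInChart_near h x (hKT hq.1)).pos.self_of_nhds q.2 (ne_zero_of_mem_unit_sphere ⟨_, hq.2⟩)
  rcases (K ×ˢ sphere (0 : E3) 1).eq_empty_or_nonempty with he | hne
  · refine ⟨1, one_pos, fun y hy v => ?_⟩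
    obtain ⟨u, hu⟩ := (NormedSpace.sphere_nonempty (x := (0 : E3))).2 zero_le_one
    have : (y, u) ∈ K ×ˢ sphere (0 : E3) 1 := ⟨hy, hu⟩
    rw [he] at this
    exact this.elim
  · obtain ⟨q, hq, hmin⟩ := (hK.prod (isCompact_sphere _ _)).exists_isMinOn hne hc
    refine ⟨_, hpos q hq, fun y hy v => ?_⟩
    rcases eq_or_ne v 0 with rfl | hv
    · simp
    · have hn : 0 < ‖v‖ := norm_pos_iff.2 hv
      have hu : (y, ‖v‖⁻¹ • v) ∈ K ×ˢ sphere (0 : E3) 1 :=
        ⟨hy, by simp [norm_smul, hn.ne']⟩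
      have h2 := isMinOn_iff.1 hmin _ hu
      dsimp only at h2
      simp only [map_smul, smul_apply, smul_eq_mul] at h2
      calc G q.1 q.2 q.2 * ‖v‖ ^ 2 ≤ (‖v‖⁻¹ * (‖v‖⁻¹ * G y v v)) * ‖v‖ ^ 2 :=
            mul_le_mul_of_nonneg_right h2 (sq_nonneg _)
        _ = G y v v := by field_simp

/-- near `x`, geodesics of bounded speed exist for a uniform time -/
lemma exists_local_time (h : Metric 3 M) (x : M) :
    ∃ W : Set M, IsOpen W ∧ x ∈ W ∧ W ⊆ (extChartAt (𝓡 3) x).source ∧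
      ∀ C : ℝ, ∃ τ : ℝ, 0 < τ ∧ ∀ p ∈ W, ∀ v : E3,
        metricInChart h x (extChartAt (𝓡 3) x p) v v ≤ C →
        ∃ σ : ℝ → M, GeoOn h σ (Ioo (-τ) τ) ∧ σ 0 = p ∧
          geoState σ x 0 = (extChartAt (𝓡 3) x p, v) := by
  set y₀ := extChartAt (𝓡 3) x x with hy₀
  obtain ⟨r, hr, hrT⟩ := nhds_basis_closedBall.mem_iff.1
    ((isOpen_extChartAt_target (I := 𝓡 3) x).mem_nhds (mem_extChartAt_target x))
  refine ⟨(extChartAt (𝓡 3) x).source ∩ extChartAt (𝓡 3) x ⁻¹' ball y₀ (r / 2),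
    (continuousOn_extChartAt x).isOpen_inter_preimage (isOpen_extChartAt_source x) isOpen_ball,
    ⟨mem_extChartAt_source x, mem_ball_self (by linarith)⟩, inter_subset_left, fun C => ?_⟩
  obtain ⟨c, hc, hcK⟩ := exists_metric_lower h x (isCompact_closedBall y₀ r) hrT
  set R : ℝ := Real.sqrt (max C 0 / c) with hR
  have hR0 : 0 ≤ R := Real.sqrt_nonneg _
  let b₁ : ContDiffBump y₀ := ⟨3 * r / 4, r, by positivity, by linarith⟩
  let b₂ : ContDiffBump (0 : E3) := ⟨R + 1, R + 2, by positivity, by linarith⟩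
  let χ : E3 × E3 → ℝ := fun q => b₁ q.1 * b₂ q.2
  have hχc : ContDiff ℝ 1 χ :=
    (b₁.contDiff.comp contDiff_fst).mul (b₂.contDiff.comp contDiff_snd)
  have hsupp : tsupport χ ⊆ closedBall y₀ r ×ˢ closedBall (0 : E3) (R + 2) := by
    refine closure_minimal (fun q hq => ?_) (isClosed_closedBall.prod isClosed_closedBall)
    simp only [χ, Function.mem_support, mul_ne_zero_iff] at hq
    have h1 : q.1 ∈ ball y₀ r := by rw [← b₁.support_eq]; exact hq.1
    have h2 : q.2 ∈ ball (0 : E3) (R + 2) := by rw [← b₂.support_eq]; exact hq.2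
    exact ⟨ball_subset_closedBall h1, ball_subset_closedBall h2⟩
  let g : E3 × E3 → E3 × E3 := fun q => χ q • geoSpray h x q
  have hg : ContDiff ℝ 1 g := contDiff_iff_contDiffAt.2 fun q => by
    by_cases hq : q ∈ geoDom x
    · exact hχc.contDiffAt.smul
        (((geoSpray_contDiffOn h x).contDiffAt ((isOpen_geoDom x).mem_nhds hq)).of_le
          (by norm_num))
    · refine (contDiffAt_const (c := (0 : E3 × E3))).congr_of_eventuallyEq ?_
      filter_upwards [(isClosed_tsupport χ).isOpen_compl.mem_nhds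
        fun hm => hq ⟨hrT (hsupp hm).1, mem_univ _⟩] with z hz
      simp [g, image_eq_zero_of_notMem_tsupport hz]
  have hgs : HasCompactSupport g :=
    (HasCompactSupport.of_support_subset_isCompact
      ((isCompact_closedBall y₀ r).prod (isCompact_closedBall (0 : E3) (R + 2)))
      ((subset_tsupport χ).trans hsupp)).smul_right
  obtain ⟨K, hK⟩ := hg.lipschitzWith_of_hasCompactSupport hgs one_ne_zero
  obtain ⟨B, hB⟩ := hgs.exists_bound_of_continuous hg.continuous
  have hB0 : 0 ≤ B := (norm_nonneg _).trans (hB (y₀, 0))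
  refine ⟨min 1 (min (r / 4) 1 / (B + 1)),
    lt_min one_pos (div_pos (lt_min (by linarith) one_pos) (by positivity)),
    fun p hp v hv => ?_⟩
  set τ := min 1 (min (r / 4) 1 / (B + 1)) with hτ
  set y := extChartAt (𝓡 3) x p with hy
  have hyb : y ∈ ball y₀ (r / 2) := hp.2
  have hvR : ‖v‖ ≤ R := by
    have h1 := hcK y (ball_subset_closedBall (ball_subset_ball (by linarith) hyb)) v
    rw [hR]
    refine Real.le_sqrt_of_sq_le ?_
    rw [le_div_iff₀ hc]
    linarith [le_max_left C 0]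
  have hτ0 : 0 < τ := lt_min one_pos (div_pos (lt_min (by linarith) one_pos) (by positivity))
  have h0 : (0 : ℝ) ∈ Icc (-τ) τ := ⟨by linarith, hτ0.le⟩
  obtain ⟨α, hα0, hα⟩ := exists_trajectory (h := fun _ => g) h0 (K := K) (B := ⟨B, hB0⟩)
    (fun _ _ => hK) (fun _ => continuousOn_const) (fun _ _ q => hB q) (y, v)
  have hnear : ∀ s ∈ Icc (-τ) τ, ‖α s - (y, v)‖ < min (r / 4) 1 := fun s hs => by
    have h1 := (convex_Icc (-τ) τ).norm_image_sub_le_of_norm_hasDerivWithin_le hα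
      (fun u _ => hB (α u)) h0 hs
    rw [hα0, sub_zero, Real.norm_eq_abs] at h1
    have h2 : B * |s| ≤ B * τ := mul_le_mul_of_nonneg_left (abs_le.2 hs) hB0
    have h3 : τ * (B + 1) ≤ min (r / 4) 1 :=
      (le_div_iff₀ (by positivity)).1 (min_le_right _ _)
    linarith
  have hgeo : ∀ s ∈ Ioo (-τ) τ, α s ∈ geoDom x ∧ g (α s) = geoSpray h x (α s) := fun s hs => by
    have h1 := hnear s (Ioo_subset_Icc_self hs)
    rw [lt_min_iff, Prod.norm_def, max_lt_iff] at h1
    have e1 : ‖(α s).1 - y₀‖ < 3 * r / 4 := by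
      calc ‖(α s).1 - y₀‖ ≤ ‖(α s).1 - y‖ + ‖y - y₀‖ := norm_sub_le_norm_sub_add_norm_sub _ _ _
        _ < r / 4 + r / 2 := add_lt_add h1.1.1 (by simpa [dist_eq_norm] using hyb)
        _ = 3 * r / 4 := by ring
    have e2 : ‖(α s).2‖ < R + 1 := by
      have := norm_le_norm_add_norm_sub' (α s).2 v
      have h2 : ‖(α s).2 - v‖ < 1 := by
        have := h1.2
        rw [max_lt_iff] at this
        exact this.2
      linarith
    refine ⟨⟨hrT (by rw [mem_closedBall, dist_eq_norm]; linarith), mem_univ _⟩, ?_⟩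
    have f1 : b₁ (α s).1 = 1 :=
      b₁.one_of_mem_closedBall (by rw [mem_closedBall, dist_eq_norm]; exact e1.le)
    have f2 : b₂ (α s).2 = 1 :=
      b₂.one_of_mem_closedBall (by rw [mem_closedBall, dist_zero_right]; exact e2.le)
    simp [g, χ, f1, f2]
  obtain ⟨hσ, hst⟩ := geoOn_of_sol (h := h) (x := x) isOpen_Ioo (fun s hs => (hgeo s hs).1)
    (fun s hs => by
      rw [← (hgeo s hs).2]
      exact (hα s (Ioo_subset_Icc_self hs)).hasDerivAt (Icc_mem_nhds hs.1 hs.2))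
  refine ⟨_, hσ, ?_, (hst 0 ⟨by linarith, hτ0⟩).trans hα0⟩
  show (extChartAt (𝓡 3) x).symm (α 0).1 = p
  rw [hα0]
  exact (extChartAt (𝓡 3) x).left_inv hp.1

/-- a geodesic through the same state, at time `s` -/
lemma GeoOn.extend [T2Space M] {h : Metric 3 M} {γ σ : ℝ → M} {a b τ s : ℝ} {x : M}
    (hg : GeoOn h γ (Ioo a b)) (hσ : GeoOn h σ (Ioo (-τ) τ)) (hτ : 0 < τ) (hs : s ∈ Ioo a b)
    (hp : σ 0 = γ s) (hx : γ s ∈ (extChartAt (𝓡 3) x).source)
    (hst : geoState σ x 0 = geoState γ x s) :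
    ∃ δ : ℝ → M, GeoOn h δ (Ioo a b ∪ Ioo (s - τ) (s + τ)) ∧ EqOn δ γ (Ioo a b) := by
  obtain ⟨h1, h2⟩ := hσ.comp_affine isOpen_Ioo 1 (-s)
  have hJ : (fun u : ℝ => 1 * u + -s) ⁻¹' Ioo (-τ) τ = Ioo (s - τ) (s + τ) := by
    ext u; simp only [mem_preimage, mem_Ioo]; constructor <;> intro hu <;>
      constructor <;> linarith [hu.1, hu.2]
  rw [hJ] at h1
  have hsJ : s ∈ Ioo (s - τ) (s + τ) := ⟨by linarith, by linarith⟩
  have e0 : (1 : ℝ) * s + -s = 0 := by ring
  have heq : EqOn γ (fun u => σ (1 * u + -s)) (Ioo a b ∩ Ioo (s - τ) (s + τ)) := by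
    refine (hg.mono inter_subset_left).eqOn (h1.mono inter_subset_right)
      (isOpen_Ioo.inter isOpen_Ioo) ?_ ⟨hs, hsJ⟩ ?_ hx ?_
    · rw [Ioo_inter_Ioo]; exact isPreconnected_Ioo
    · simp [hp]
    · rw [h2 s (by rw [e0]; exact ⟨by linarith, hτ⟩) x (by rw [e0, hp]; exact hx), e0, hst]
      simp
  obtain ⟨δ, hδ, hδγ, -⟩ := hg.union h1 isOpen_Ioo isOpen_Ioo heq
  exact ⟨δ, hδ, hδγ⟩

theorem exists_geo_global [T2Space M] [CompactSpace M] (h : Metric 3 M) (p : M) (v : E3) :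
    ∃ γ : ℝ → M, GeoOn h γ univ ∧ γ 0 = p ∧
      geoState γ p 0 = (extChartAt (𝓡 3) p p, v) := by
  classical
  choose W hW hxW hWs hWt using exists_local_time h
  obtain ⟨T₀, hT₀⟩ := isCompact_univ.elim_finite_subcover W hW
    (fun q _ => mem_iUnion.2 ⟨q, hxW q⟩)
  set C := metricInChart h p (extChartAt (𝓡 3) p p) v v with hC
  choose τ hτ hτt using fun x => hWt x C
  obtain ⟨σ₀, hσ₀, hσp, hσv⟩ := hτt p p (hxW p) v le_rfl
  -- a uniform time
  obtain ⟨η, hη, hηle⟩ : ∃ η : ℝ, 0 < η ∧ ∀ x ∈ insert p T₀, η ≤ τ x :=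
    ⟨(insert p T₀).inf' (Finset.insert_nonempty _ _) τ,
      (Finset.lt_inf'_iff _).2 fun x _ => hτ x, fun x hx => Finset.inf'_le τ hx⟩
  have sub : ∀ x ∈ insert p T₀, Ioo (-η) η ⊆ Ioo (-τ x) (τ x) := fun x hx =>
    Ioo_subset_Ioo (neg_le_neg (hηle x hx)) (hηle x hx)
  have key : ∀ n : ℕ, ∃ γ : ℝ → M,
      GeoOn h γ (Ioo (-(η + n * (η / 2))) (η + n * (η / 2))) ∧ γ 0 = p ∧
        geoState γ p 0 = (extChartAt (𝓡 3) p p, v) := by
    intro n
    induction n with
    | zero =>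
      exact ⟨σ₀, by simpa using hσ₀.mono (sub p (Finset.mem_insert_self _ _)), hσp, hσv⟩
    | succ n ih =>
      obtain ⟨γ, hg, hgp, hgv⟩ := ih
      set T := η + (n : ℝ) * (η / 2) with hT
      have hTη : η ≤ T := le_add_of_nonneg_right (by positivity)
      have h0T : (0 : ℝ) ∈ Ioo (-T) T := ⟨by linarith, by linarith⟩
      -- one step past time `s`
      have step : ∀ (a b : ℝ) (γ : ℝ → M), GeoOn h γ (Ioo a b) → (0 : ℝ) ∈ Ioo a b → γ 0 = p →
          geoState γ p 0 = (extChartAt (𝓡 3) p p, v) → ∀ s ∈ Ioo a b,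
          ∃ δ : ℝ → M, GeoOn h δ (Ioo a b ∪ Ioo (s - η) (s + η)) ∧ δ 0 = p ∧
            geoState δ p 0 = (extChartAt (𝓡 3) p p, v) := by
        intro a b γ hg h0 hgp hgv s hs
        have hsp0 : geoSpeed h γ 0 = C := by
          rw [← hg.speed_chart isOpen_Ioo h0 (by rw [hgp]; exact mem_extChartAt_source p), hgv]
        obtain ⟨x, hxT, hsW⟩ : ∃ x ∈ T₀, γ s ∈ W x := by
          have := hT₀ (mem_univ (γ s))
          simpa using this
        have hxi : x ∈ insert p T₀ := Finset.mem_insert_of_mem hxT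
        have hsp : metricInChart h x (geoState γ x s).1 (geoState γ x s).2 (geoState γ x s).2
            = C := by
          rw [hg.speed_chart isOpen_Ioo hs (hWs x hsW),
            hg.speed_const isOpen_Ioo isPreconnected_Ioo h0 hs, hsp0]
        obtain ⟨σ, hσ, hσ0, hσs⟩ := hτt x (γ s) hsW (geoState γ x s).2 hsp.le
        obtain ⟨δ, hδ, hδγ⟩ :=
          hg.extend (hσ.mono (sub x hxi)) hη hs hσ0 (hWs x hsW) hσs
        refine ⟨δ, hδ, (hδγ h0).trans hgp, ?_⟩
        have he : curveIn δ p =ᶠ[𝓝 0] curveIn γ p := by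
          filter_upwards [isOpen_Ioo.mem_nhds h0] with u hu
          simp [curveIn, hδγ hu]
        rw [← hgv, geoState, geoState, he.deriv_eq, he.self_of_nhds]
      obtain ⟨δ, hδ, hδp, hδv⟩ :=
        step _ _ γ hg h0T hgp hgv (T - η / 2) ⟨by linarith, by linarith⟩
      have e1 : Ioo (-T) T ∪ Ioo (T - η / 2 - η) (T - η / 2 + η) = Ioo (-T) (T + η / 2) := by
        ext u; simp only [mem_union, mem_Ioo]
        constructor
        · rintro (⟨a, b⟩ | ⟨a, b⟩) <;> constructor <;> linarith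
        · rintro ⟨a, b⟩
          rcases lt_or_ge u T with hu | hu
          · exact Or.inl ⟨a, hu⟩
          · exact Or.inr ⟨by linarith, by linarith⟩
      rw [e1] at hδ
      obtain ⟨ε, hε, hεp, hεv⟩ := step _ _ δ hδ ⟨by linarith, by linarith⟩ hδp hδv
        (-T + η / 2) ⟨by linarith, by linarith⟩
      refine ⟨ε, hε.mono fun u hu => ?_, hεp, hεv⟩
      push_cast at hu
      simp only [mem_Ioo, mem_union] at hu ⊢
      rcases lt_or_ge (-T) u with hu' | hu'
      · exact Or.inl ⟨hu', by rw [hT]; linarith [hu.2]⟩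
      · exact Or.inr ⟨by rw [hT] at hu' ⊢; linarith [hu.1], by linarith⟩
  choose γ hγ hγp hγv using key
  set T : ℕ → ℝ := fun n => η + n * (η / 2) with hT
  have hTm : ∀ {m n : ℕ}, m ≤ n → T m ≤ T n := fun {m n} hmn => by
    have : (m : ℝ) ≤ n := by exact_mod_cast hmn
    simp only [hT]; nlinarith
  have agree : ∀ {m n : ℕ}, m ≤ n → EqOn (γ m) (γ n) (Ioo (-T m) (T m)) := fun {m n} hmn =>
    (hγ m).eqOn ((hγ n).mono (Ioo_subset_Ioo (neg_le_neg (hTm hmn)) (hTm hmn))) isOpen_Ioo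
      isPreconnected_Ioo (t₀ := 0) ⟨by simp only [hT, neg_lt_zero]; positivity,
        by simp only [hT]; positivity⟩
      ((hγp m).trans (hγp n).symm) (x := p) (by rw [hγp]; exact mem_extChartAt_source p)
      ((hγv m).trans (hγv n).symm)
  have hN : ∀ t : ℝ, ∃ N : ℕ, t ∈ Ioo (-T N) (T N) := fun t => by
    obtain ⟨N, hN⟩ := exists_nat_gt (|t| / (η / 2))
    rw [div_lt_iff₀ (by positivity)] at hN
    refine ⟨N, abs_lt.1 ?_⟩
    simp only [hT]; linarith
  choose N hN using hN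
  have hG : ∀ n, EqOn (fun t => γ (N t) t) (γ n) (Ioo (-T n) (T n)) := fun n t ht => by
    rcases le_total (N t) n with hle | hle
    · exact agree hle (hN t)
    · exact (agree hle ht).symm
  have hloc : ∀ n, GeoOn h (fun t => γ (N t) t) (Ioo (-T n) (T n)) := fun n =>
    (hγ n).congr isOpen_Ioo (hG n)
  refine ⟨fun t => γ (N t) t, ⟨fun t _ => ?_, fun t _ => (hloc (N t)).2 t (hN t)⟩, hγp _, ?_⟩
  · exact ((hloc (N t)).1.continuousAt (isOpen_Ioo.mem_nhds (hN t))).continuousWithinAt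
  · have he : curveIn (fun t => γ (N t) t) p =ᶠ[𝓝 0] curveIn (γ (N 0)) p := by
      filter_upwards [isOpen_Ioo.mem_nhds (hN 0)] with u hu
      simp [curveIn, hG (N 0) hu]
    rw [← hγv (N 0), geoState, geoState, he.deriv_eq, he.self_of_nhds]

end Vale.Agent.P255
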