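import Vale.Agent.P255.NPC.GeoGlobal
import Vale.Agent.P255.NPC.FlowC1

/-!
# P255 module D2a, fourth part: the family of geodesics from a point

The state at each time is `C¹` in the initial velocity, by propagation with the local flow of the
chart systems, and its derivative solves the linearised system.
-/

open scoped Manifold ContDiff
open Bundle Set Filter Topology

namespace Vale.Agent.P255

set_option maxSynthPendingDepth 3

variable {M : Type} [TopologicalSpace M] [ChartedSpace E3 M] [IsManifold (𝓡 3) ∞ M]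
  [T2Space M] [CompactSpace M]

variable (h : Metric 3 M) (p : M)

/-- the geodesic from `p` with initial velocity `v` -/
noncomputable def geoFam (v : E3) : ℝ → M := (exists_geo_global h p v).choose

theorem geoFam_geo (v : E3) : GeoOn h (geoFam h p v) univ :=
  (exists_geo_global h p v).choose_spec.1

theorem geoFam_zero (v : E3) : geoFam h p v 0 = p := (exists_geo_global h p v).choose_spec.2.1

theorem geoFam_state (v : E3) :
    geoState (geoFam h p v) p 0 = (extChartAt (𝓡 3) p p, v) :=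
  (exists_geo_global h p v).choose_spec.2.2

/-- scaling the initial velocity -/
theorem geoFam_smul (c : ℝ) (v : E3) (s : ℝ) :
    geoFam h p (c • v) s = geoFam h p v (c * s) := by
  obtain ⟨h1, h2⟩ := (geoFam_geo h p v).comp_affine isOpen_univ c 0
  rw [preimage_univ] at h1
  have hp : geoFam h p v (c * 0 + 0) = p := by simp [geoFam_zero]
  have hp' := mem_extChartAt_source (I := 𝓡 3) p
  have he := GeoOn.eqOn (geoFam_geo h p (c • v)) h1 isOpen_univ isPreconnected_univ (mem_univ 0)
    (x := p) (by rw [hp, geoFam_zero]) (by rw [geoFam_zero]; exact hp')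
    (by rw [geoFam_state, h2 0 (mem_univ _) p (by rw [hp]; exact hp'), mul_zero, zero_add,
      geoFam_state])
  simpa using he (mem_univ s)

/-- state in a chart, as a function of the initial velocity -/
noncomputable def famState (x : M) (t : ℝ) (v : E3) : E3 × E3 :=
  geoState (geoFam h p v) x t

/-- the state is `C¹` in the velocity, in some chart -/
def FamRegular (v₀ : E3) (t : ℝ) : Prop :=
  ∃ x, (∀ᶠ v in 𝓝 v₀, geoFam h p v t ∈ (extChartAt (𝓡 3) x).source) ∧
    ContDiffAt ℝ 1 (famState h p x t) v₀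

variable {h p}

theorem contDiffAt_liftState {φ : E3 → E3} {q : E3 × E3} (hφ : ContDiffAt ℝ ∞ φ q.1) :
    ContDiffAt ℝ 1 (liftState φ) q :=
  ((hφ.of_le (by simp)).comp q contDiffAt_fst).prodMk
    (((hφ.fderiv_right (m := 1) (WithTop.coe_le_coe.2 le_top)).comp q contDiffAt_fst).clm_apply contDiffAt_snd)

theorem FamRegular.chart {v₀ : E3} {t : ℝ} (hr : FamRegular h p v₀ t) {x' : M}
    (hx' : geoFam h p v₀ t ∈ (extChartAt (𝓡 3) x').source) :
    (∀ᶠ v in 𝓝 v₀, geoFam h p v t ∈ (extChartAt (𝓡 3) x').source) ∧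
      ContDiffAt ℝ 1 (famState h p x' t) v₀ := by
  obtain ⟨x, hev, hc⟩ := hr
  have hx := hev.self_of_nhds
  have hsymm : ContinuousAt (extChartAt (𝓡 3) x).symm (extChartAt (𝓡 3) x (geoFam h p v₀ t)) :=
    continuousAt_extChartAt_symm' hx
  have hcont : ContinuousAt (fun v => geoFam h p v t) v₀ := by
    refine (hsymm.comp_of_eq hc.continuousAt.fst rfl).congr ?_
    filter_upwards [hev] with v hv
    exact (extChartAt (𝓡 3) x).left_inv hv
  have hev' := hcont.eventually_mem ((isOpen_extChartAt_source x').mem_nhds hx')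
  refine ⟨hev', ?_⟩
  have hl : ContDiffAt ℝ 1 (liftState ((extChartAt (𝓡 3) x') ∘ (extChartAt (𝓡 3) x).symm))
      (famState h p x t v₀) := contDiffAt_liftState (metricInChart_pullsBack h x x' hx hx').1
  refine (hl.comp v₀ hc).congr_of_eventuallyEq ?_
  filter_upwards [hev, hev'] with v hv hv'
  exact (geoFam_geo h p v).state_change isOpen_univ (mem_univ _) hv hv'

/-- propagation inside a chart, with the linearised equation -/
theorem famState_step {v₀ : E3} {x : M} {A B t₁ : ℝ} (h1 : t₁ ∈ Ioo A B)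
    (hsrc : ∀ s ∈ Icc A B, geoFam h p v₀ s ∈ (extChartAt (𝓡 3) x).source)
    (hr : FamRegular h p v₀ t₁) :
    (∀ s ∈ Ioo A B, FamRegular h p v₀ s) ∧ ∀ s ∈ Ioo A B, ∀ w,
      HasDerivAt (fun r => fderiv ℝ (famState h p x r) v₀ w)
        (fderiv ℝ (geoSpray h x) (famState h p x s v₀) (fderiv ℝ (famState h p x s) v₀ w)) s := by
  have hg := geoFam_geo h p v₀
  have htr : ∀ r ∈ Icc (A - t₁) (B - t₁), r + t₁ ∈ Icc A B := fun r hr' =>
    ⟨by linarith [hr'.1], by linarith [hr'.2]⟩
  have hsol : ∀ r ∈ Icc (A - t₁) (B - t₁),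
      HasDerivWithinAt (fun r => famState h p x (r + t₁) v₀)
        (geoSpray h x (famState h p x (r + t₁) v₀)) (Icc (A - t₁) (B - t₁)) r := fun r hr' =>
    (((hg.2 _ (mem_univ _) x (hsrc _ (htr r hr'))).comp_add_const r t₁)).hasDerivWithinAt
  obtain ⟨V, Φ, hV, hV0, hΦ, hC, hL⟩ := exists_flow_variational (isOpen_geoDom x)
    ((geoSpray_contDiffOn h x).of_le (by simp)) (a := A - t₁) (b := B - t₁)
    (γ := fun r => famState h p x (r + t₁) v₀)
    ⟨by linarith [h1.1], by linarith [h1.2]⟩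
    (fun r hr' => geoState_mem (hsrc _ (htr r hr'))) hsol
  simp only [zero_add] at hV0
  obtain ⟨hev, hc1⟩ := hr.chart (hsrc t₁ (Ioo_subset_Icc_self h1))
  have key : ∀ᶠ v in 𝓝 v₀, ∀ s ∈ Ioo A B,
      geoFam h p v s ∈ (extChartAt (𝓡 3) x).source ∧
        famState h p x s v = Φ (famState h p x t₁ v) (s - t₁) := by
    filter_upwards [hev, hc1.continuousAt.eventually_mem (hV.mem_nhds hV0)] with v hv hvV
    obtain ⟨hq0, hq⟩ := hΦ _ hvV
    set α : ℝ → E3 × E3 := fun s => Φ (famState h p x t₁ v) (s - t₁) with hα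
    have hmem : ∀ s ∈ Ioo A B, s - t₁ ∈ Ioo (A - t₁) (B - t₁) := fun s hs =>
      ⟨by linarith [hs.1], by linarith [hs.2]⟩
    have hd : ∀ s ∈ Ioo A B, HasDerivAt α (geoSpray h x (α s)) s := fun s hs =>
      ((hq _ (Ioo_subset_Icc_self (hmem s hs))).2.hasDerivAt
        (Icc_mem_nhds (hmem s hs).1 (hmem s hs).2)).comp_sub_const s t₁
    obtain ⟨hgσ, hsσ⟩ := geoOn_of_sol isOpen_Ioo
      (fun s hs => (hq _ (Ioo_subset_Icc_self (hmem s hs))).1) hd
    set σ := fun s => (extChartAt (𝓡 3) x).symm (α s).1 with hσ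
    have hp0 : α t₁ = famState h p x t₁ v := by simp [hα, hq0]
    have heq := ((geoFam_geo h p v).mono (subset_univ _)).eqOn hgσ isOpen_Ioo isPreconnected_Ioo h1
      (by rw [hσ]; simp only [hp0]; exact ((extChartAt (𝓡 3) x).left_inv hv).symm)
      hv ((hsσ t₁ h1).trans hp0).symm
    intro s hs
    have hs1 : geoFam h p v s ∈ (extChartAt (𝓡 3) x).source := by
      rw [heq hs]
      exact (extChartAt (𝓡 3) x).map_target (hq _ (Ioo_subset_Icc_self (hmem s hs))).1.1
    refine ⟨hs1, ?_⟩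
    have he : ∀ᶠ r in 𝓝 s, curveIn (geoFam h p v) x r = curveIn σ x r := by
      filter_upwards [isOpen_Ioo.mem_nhds hs] with r hr'
      simp only [curveIn, heq hr']
    have he' : geoState (geoFam h p v) x s = geoState σ x s :=
      Prod.ext he.self_of_nhds (Filter.EventuallyEq.deriv_eq he)
    exact he'.trans (hsσ s hs)
  have hmem' : ∀ s ∈ Ioo A B, s - t₁ ∈ Icc (A - t₁) (B - t₁) := fun s hs =>
    ⟨by linarith [hs.1], by linarith [hs.2]⟩
  obtain ⟨L, -, hL⟩ := hL _ hV0
  refine ⟨fun s hs => ⟨x, key.mono fun v hv => (hv s hs).1, ?_⟩, fun s hs w => ?_⟩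
  · have h2 : ContDiffAt ℝ 1 (fun q => Φ q (s - t₁)) (famState h p x t₁ v₀) :=
      (hC _ (hmem' s hs)).contDiffAt (hV.mem_nhds hV0)
    exact (h2.comp v₀ hc1).congr_of_eventuallyEq (key.mono fun v hv => (hv s hs).2)
  · set D := fderiv ℝ (famState h p x t₁) v₀
    have hdv : ∀ r ∈ Ioo A B, fderiv ℝ (famState h p x r) v₀ w = L (r - t₁) (D w) := by
      intro r hr'
      have hd := ((hL _ (hmem' r hr')).1.comp v₀
        (hc1.differentiableAt (by simp)).hasFDerivAt).congr_of_eventuallyEq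
        (key.mono fun v hv => (hv r hr').2)
      rw [hd.fderiv]
      rfl
    have hLd := (((hL _ (hmem' s hs)).2.hasDerivAt
      (Icc_mem_nhds (by linarith [hs.1]) (by linarith [hs.2]))).comp_sub_const s t₁).clm_apply
      (hasDerivAt_const s (D w))
    rw [(key.self_of_nhds s hs).2, hdv s hs]
    refine (hLd.congr_deriv (by simp)).congr_of_eventuallyEq ?_
    filter_upwards [isOpen_Ioo.mem_nhds hs] with r hr' using hdv r hr'

theorem exists_chart_interval (v₀ : E3) {x : M} {t : ℝ}
    (hx : geoFam h p v₀ t ∈ (extChartAt (𝓡 3) x).source) :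
    ∃ δ > 0, ∀ s ∈ Icc (t - δ) (t + δ), geoFam h p v₀ s ∈ (extChartAt (𝓡 3) x).source := by
  obtain ⟨δ, hδ, hs⟩ := Metric.nhds_basis_closedBall.mem_iff.1
    ((geoFam_geo h p v₀).eventually_source isOpen_univ (mem_univ t) hx)
  rw [Real.closedBall_eq_Icc] at hs
  exact ⟨δ, hδ, fun s hs' => (hs hs').2⟩

theorem famRegular (v₀ : E3) (t : ℝ) : FamRegular h p v₀ t := by
  have h0 : FamRegular h p v₀ 0 := by
    refine ⟨p, Filter.Eventually.of_forall fun v => ?_, ?_⟩
    · rw [geoFam_zero]
      exact mem_extChartAt_source p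
    · rw [show famState h p p 0 = fun v => (extChartAt (𝓡 3) p p, v) from
        funext fun v => geoFam_state h p v]
      exact contDiffAt_const.prodMk contDiffAt_id
  suffices hS : {s | FamRegular h p v₀ s} = univ from hS.ge (mem_univ t)
  refine IsClopen.eq_univ ⟨?_, ?_⟩ ⟨0, h0⟩
  · refine isClosed_of_closure_subset fun s hs => ?_
    obtain ⟨δ, hδ, hsrc⟩ := exists_chart_interval (h := h) (p := p) v₀ (t := s)
      (mem_extChartAt_source (I := 𝓡 3) (geoFam h p v₀ s))
    obtain ⟨t₁, ht₁, hr⟩ := mem_closure_iff_nhds.1 hs _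
      (Ioo_mem_nhds (by linarith : s - δ < s) (by linarith : s < s + δ))
    exact (famState_step ht₁ hsrc hr).1 s ⟨by linarith, by linarith⟩
  · refine isOpen_iff_mem_nhds.2 fun s hr => ?_
    obtain ⟨δ, hδ, hsrc⟩ := exists_chart_interval (h := h) (p := p) v₀ (t := s)
      (mem_extChartAt_source (I := 𝓡 3) (geoFam h p v₀ s))
    exact mem_of_superset (Ioo_mem_nhds (by linarith) (by linarith))
      (famState_step ⟨by linarith, by linarith⟩ hsrc hr).1

/-- the variation field solves the linearised system in every chart -/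
theorem famState_variation (v₀ w : E3) {x : M} {t : ℝ}
    (hx : geoFam h p v₀ t ∈ (extChartAt (𝓡 3) x).source) :
    ∀ᶠ s in 𝓝 t, geoFam h p v₀ s ∈ (extChartAt (𝓡 3) x).source ∧
      HasDerivAt (fun r => famState h p x r v₀) (geoSpray h x (famState h p x s v₀)) s ∧
      HasDerivAt (fun r => fderiv ℝ (famState h p x r) v₀ w)
        (fderiv ℝ (geoSpray h x) (famState h p x s v₀) (fderiv ℝ (famState h p x s) v₀ w)) s := by
  obtain ⟨δ, hδ, hsrc⟩ := exists_chart_interval v₀ hx
  have hst := (famState_step (h1 := (⟨by linarith, by linarith⟩ : t ∈ Ioo (t - δ) (t + δ))) hsrc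
    (famRegular v₀ t)).2
  filter_upwards [Ioo_mem_nhds (by linarith : t - δ < t) (by linarith : t < t + δ)] with s hs
  have hs' := hsrc s (Ioo_subset_Icc_self hs)
  exact ⟨hs', (geoFam_geo h p v₀).2 s (mem_univ _) x hs', hst s hs w⟩

theorem contMDiff_geoFam (t : ℝ) :
    ContMDiff (𝓡 3) (𝓡 3) 1 (fun v => geoFam h p v t) := by
  intro v₀
  obtain ⟨hev, hc⟩ := (famRegular (h := h) (p := p) v₀ t).chart
    (mem_extChartAt_source (I := 𝓡 3) (geoFam h p v₀ t))
  have h1 : ContMDiffAt (𝓡 3) (𝓡 3) 1 (fun v => (famState h p (geoFam h p v₀ t) t v).1) v₀ :=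
    (contDiffAt_fst.comp v₀ hc).contMDiffAt
  have h2 : ContMDiffAt (𝓡 3) (𝓡 3) 1 (extChartAt (𝓡 3) (geoFam h p v₀ t)).symm
      (famState h p (geoFam h p v₀ t) t v₀).1 :=
    ((contMDiffOn_extChartAt_symm (geoFam h p v₀ t)).contMDiffAt
      ((isOpen_extChartAt_target _).mem_nhds
        ((extChartAt (𝓡 3) _).map_source hev.self_of_nhds)))
  refine (h2.comp v₀ h1).congr_of_eventuallyEq (hev.mono fun v hv => ?_)
  exact ((extChartAt (𝓡 3) _).left_inv hv).symm

end Vale.Agent.P255
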